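import Vale.Agent.P253Y.H.Defs
import Vale.Agent.P297Y.Alg.Penb

/-!
# P253Y, block H1: the base of the ruling is rational (row BASE)
-/

set_option linter.all false

namespace Vale.Agent.P253Y.H

open Vale.Agent.P297Z Vale.Agent.P297Z.Sf
open Vale.Agent.P297 (Place)
open Vale.Agent.P019P (CFF Plk)

namespace Bs

section
variable {F : Type} [Field F] [Algebra ℂ F] [CFF ℂ F]

/-- a function with one simple pole generates the field -/
theorem rat {f : F} {q : Plk ℂ F} (h2 : P019P.ord q f = -1)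
    (h3 : ∀ r, r ≠ q → 0 ≤ P019P.ord r f) :
    Transcendental ℂ f ∧ IntermediateField.adjoin ℂ {f} = ⊤ := by
  have nc : ∀ a : ℂ, f ≠ algebraMap ℂ F a := fun a e => by
    rw [e, P019P.ord_const] at h2
    omega
  have e : P019P.pol ℂ f = Finsupp.single q 1 := by
    ext r
    rw [P019P.pol_apply]
    by_cases h : r = q
    · rw [h, h2, Finsupp.single_eq_same]
      rfl
    · have := h3 r h
      rw [Finsupp.single_eq_of_ne h]
      omega
  have h4 := P019P.dg_pol nc
  rw [e, P019P.dg_sgl] at h4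
  refine ⟨fun h => ?_, ?_⟩
  · obtain ⟨a, ha⟩ := minpoly.mem_range_of_degree_eq_one ℂ f
      (IsAlgClosed.degree_eq_one_of_irreducible ℂ (minpoly.irreducible h.isIntegral))
    exact nc a ha.symm
  · refine eq_top_iff.2 fun x _ => ?_
    have h5 : (⊤ : Subalgebra (IntermediateField.adjoin ℂ {f}) F) = ⊥ :=
      (Subalgebra.bot_eq_top_of_finrank_eq_one (by exact_mod_cast h4.symm)).symm
    have h6 : x ∈ (⊥ : Subalgebra (IntermediateField.adjoin ℂ {f}) F) := h5 ▸ Algebra.mem_top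
    obtain ⟨y, rfl⟩ := Algebra.mem_bot.1 h6
    exact y.2

theorem unc : Uncountable (Plk ℂ F) := by
  obtain ⟨u, hu, -⟩ := CFF.ex (k := ℂ) (F := F)
  have nc : ∀ c a : ℂ, u - algebraMap ℂ F c ≠ algebraMap ℂ F a := fun c a e => by
    rw [sub_eq_iff_eq_add, ← map_add] at e
    exact hu (e ▸ isAlgebraic_algebraMap _)
  choose p hp using fun c : ℂ => P019P.exists_zero (nc c)
  have : Uncountable ℂ := Complex.ofReal_injective.uncountable
  refine Function.Injective.uncountable (f := p) fun c d e => ?_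
  by_contra hne
  have h1 := hp c
  have h2 := hp d
  rw [← e] at h2
  have h0 : ∀ c : ℂ, u - algebraMap ℂ F c ≠ 0 := fun c => by simpa using nc c 0
  have h3 : u - algebraMap ℂ F c + -(u - algebraMap ℂ F d) = algebraMap ℂ F (d - c) := by
    rw [map_sub]; ring
  have h4 := P019P.ord_le_add (p c) (h0 c) (neg_ne_zero.2 (h0 d)) (by
    rw [h3]; exact (map_ne_zero _).2 (sub_ne_zero.2 (Ne.symm hne)))
  rw [h3, P019P.ord_const, P019P.ord_neg] at h4
  omega

/-- if all places outside a finite set are principal outside this set, the field is rational -/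
theorem rat_of {B : Set (Plk ℂ F)} (hB : B.Finite) (h : ∀ p, p ∉ B → ∃ g : F, g ≠ 0 ∧
    P019P.ord p g = 1 ∧ ∀ q, q ∉ B → q ≠ p → P019P.ord q g = 0) :
    ∃ f : F, Transcendental ℂ f ∧ IntermediateField.adjoin ℂ {f} = ⊤ := by
  choose! g g0 g1 g2 using h
  have := unc (F := F)
  have : Finite B := hB
  have h1 : ¬ (Bᶜ).InjOn fun p (b : B) => P019P.ord b.1 (g p) := fun hi => by
    have h2 : (Bᶜ).Countable := Set.countable_of_injective_of_countable_image hi
      (Set.to_countable _)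
    have h3 := h2.union hB.countable
    rw [Set.compl_union_self] at h3
    exact Set.not_countable_univ h3
  simp only [Set.InjOn, not_forall] at h1
  obtain ⟨p, hp, q, hq, e, hne⟩ := h1
  have o : ∀ r : Plk ℂ F,
      P019P.ord r (g p * (g q)⁻¹) = P019P.ord r (g p) - P019P.ord r (g q) := fun r => by
    rw [P019P.ord_mul r (g0 p hp) (inv_ne_zero (g0 q hq)), P019P.ord_inv, sub_eq_add_neg]
  refine ⟨g p * (g q)⁻¹, rat (q := q) ?_ fun r hr => ?_⟩
  · rw [o, g1 q hq, g2 p hp q hq (Ne.symm hne)]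
    rfl
  · rw [o]
    by_cases hb : r ∈ B
    · have := congrFun e ⟨r, hb⟩
      simp only at this
      omega
    · rw [g2 q hq r hb hr]
      by_cases h : r = p
      · rw [h, g1 p hp]
        omega
      · rw [g2 p hp r hb h]
        omega

end

variable {K : Type} [Field K] [Algebra ℂ K]

theorem ord_over (v : Place K) (k : IntermediateField ℂ K) [CFF ℂ k] (p : Plk ℂ k)
    (h : ∀ f : k, (f : K) ∈ v.ring ↔ f ∈ p.1) :
    ∃ e : ℤ, 0 < e ∧ ∀ f : k, f ≠ 0 → v.ord f = e * P019P.ord p f := by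
  obtain ⟨π, π0, hπ⟩ := P019P.exists_unif p
  have ne : ∀ {f : k}, f ≠ 0 → (f : K) ≠ 0 := fun hf e => hf (Subtype.ext e)
  refine ⟨v.ord π, Pl.ord_pos_of_inv_notMem _ fun b => ?_, fun f f0 => ?_⟩
  · have := ((P019P.mem_iff_ord p _).1 ((h π⁻¹).1 b)).resolve_left (inv_ne_zero π0)
    rw [P019P.ord_inv, hπ] at this
    omega
  have z0 : π ^ P019P.ord p f ≠ 0 := zpow_ne_zero _ π0
  have c1 : P019P.ord p (f * (π ^ P019P.ord p f)⁻¹) = 0 := by
    rw [P019P.ord_mul p f0 (inv_ne_zero z0), P019P.ord_inv, P019P.ord_zpow, hπ]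
    ring
  have c2 := Pl.ord_unit v ((h _).2 ((P019P.mem_iff_ord p _).2 (Or.inr c1.ge)))
    ((h (f * (π ^ P019P.ord p f)⁻¹)⁻¹).2 ((P019P.mem_iff_ord p _).2
      (Or.inr (by rw [P019P.ord_inv, c1]; exact le_rfl))))
  have c3 : ((f * (π ^ P019P.ord p f)⁻¹ : k) : K) = f / (π : K) ^ P019P.ord p f := by
    show algebraMap k K (f * (π ^ P019P.ord p f)⁻¹) = _
    rw [map_mul, map_inv₀, map_zpow₀, div_eq_mul_inv]
    rfl
  rw [c3, Pl.ord_div _ (ne f0) (zpow_ne_zero _ (ne π0)), Pl.ord_zpow] at c2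
  linarith

end Bs

theorem base : BASE := by
  intro K _ _ S D S' P T hU hT hO
  let Ov : Crv S.W → Plk ℂ P.k → Prop := fun C p => ∀ f : P.k, (f : K) ∈ C.pl.ring ↔ f ∈ p.1
  have uq : ∀ C p q, Ov C p → Ov C q → p = q := fun C p q h h' =>
    P019P.Plk.eq_of_le fun z hz => (h' z).1 ((h z).2 hz)
  refine Bs.rat_of (B := {p | ∀ C, Ov C p → C ∈ D}) ?_ fun p hp => ?_
  · choose c hc using ParA.exists_crv S.all P.k
    refine Set.Finite.of_finite_image (f := c) (D.finite_toSet.subset ?_) fun p _ q _ e =>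
      uq _ p q (hc p) (e ▸ hc q)
    rintro _ ⟨p, hp, rfl⟩
    exact hp _ (hc p)
  simp only [Set.mem_setOf_eq, not_forall] at hp
  obtain ⟨C, hC, hD⟩ := hp
  obtain ⟨g, g0, g1, g2⟩ := hU.prin C hD
  have h1 : ∀ C', P.Hor C' → C' ≠ T → g ∈ C'.pl.ring ∧ g⁻¹ ∈ C'.pl.ring := by
    intro C' h h'
    obtain ⟨E, hE, e⟩ := hO C' h h'
    rw [← e]
    refine (Pl.ord_eq_zero_iff _ g0).1 (g2 E hE ?_)
    rintro rfl
    exact p.2.2 (eq_top_iff.2 fun f _ => (hC f).1 (e ▸ h f))
  have h2 : g ∈ P.k := by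
    rcases T.pl.ring.mem_or_inv_mem g with h | h
    · refine PenB.vert P g fun C' h' => ?_
      by_cases e : C' = T
      · rwa [e]
      · exact (h1 C' h' e).1
    · have := PenB.vert P g⁻¹ fun C' h' => by
        by_cases e : C' = T
        · rwa [e]
        · exact (h1 C' h' e).2
      simpa using P.k.inv_mem this
  have g0' : (⟨g, h2⟩ : P.k) ≠ 0 := fun e => g0 (congrArg Subtype.val e)
  refine ⟨⟨g, h2⟩, g0', ?_, fun q hq hne => ?_⟩
  · obtain ⟨e, e0, he⟩ := Bs.ord_over C.pl P.k p hC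
    have h3 := he _ g0'
    rw [show C.pl.ord ((⟨g, h2⟩ : P.k) : K) = 1 from g1] at h3
    exact Int.eq_one_of_mul_eq_one_left (by nlinarith) h3.symm
  · simp only [Set.mem_setOf_eq, not_forall] at hq
    obtain ⟨C', hC', hD'⟩ := hq
    obtain ⟨e, e0, he⟩ := Bs.ord_over C'.pl P.k q hC'
    have h3 := he _ g0'
    rw [show C'.pl.ord ((⟨g, h2⟩ : P.k) : K) = 0 from
      g2 C' hD' fun o => hne (uq C q p (o ▸ hC') hC)] at h3
    exact (mul_eq_zero.1 h3.symm).resolve_left e0.ne'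

end Vale.Agent.P253Y.H
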