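import Vale.Agent.P253Y.H.Defs
import Vale.Agent.P253Y.Res.Cent
import Vale.Agent.P297Y.Alg.Penb
import Mathlib.RingTheory.AlgebraicIndependent.AlgebraicClosure
import Mathlib.RingTheory.AlgebraicIndependent.TranscendenceBasis

/-! P253Y, block H1: the horizontal curves and the fibration by affine lines. -/

set_option linter.all false

namespace Vale.Agent.P253Y.H

open Vale.Agent.P297Z Vale.Agent.P297Z.Sf
open Vale.Agent.P297 (Place)

variable {K : Type} [Field K] [Algebra ℂ K]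

namespace Br

/-- A curve that is not in `D` has a point outside `D`. -/
theorem ex_off (S : Surf K) (D : Finset (Crv S.W)) {C : Crv S.W} (hC : C ∉ D) :
    ∃ x : Pt S.W, x.On C ∧ ∀ C' ∈ D, ¬ x.On C' := by
  obtain ⟨i, hi⟩ := S.all.crv_cover C
  have h2 : (⋃ C' ∈ (D : Set (Crv S.W)), {x : Pt S.W | x.On C ∧ x.On C'}).Finite :=
    D.finite_toSet.biUnion fun C' h => S.all.fin_meet C C' fun e => hC (e ▸ h)
  obtain ⟨x, x1, x2⟩ := (S.all.inf_pt C _ (S.x_mem i) hi).exists_notMem_finite h2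
  refine ⟨x, x1.1, fun C' h h' => x2 ?_⟩
  simp only [Set.mem_iUnion]
  exact ⟨C', h, x1.1, h'⟩

/-- At every point a unit of the place vanishes. -/
theorem ex_van {S : Surf K} (P : Pen S) {f : P.k} (hf : Transcendental ℂ f) {v : Place K}
    (hv : Hz (f : K) v) (x : Pt S.W) : ∃ g : P.k, g ≠ 0 ∧ x.Van g ∧ v.ord g = 0 := by
  by_cases h : 0 ≤ P019P.ord (P.π x) f
  · obtain ⟨c, hc⟩ := S.all.val x f ((P.isPi x f).1 h)
    refine ⟨f - algebraMap ℂ P.k c, fun e => hf ?_, hc, hv.2 c⟩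
    rw [sub_eq_zero.1 e]
    exact isAlgebraic_algebraMap c
  · refine ⟨f⁻¹, inv_ne_zero fun e => hf (e ▸ isAlgebraic_zero),
      (P.isPi x f⁻¹).2 (by rw [P019P.ord_inv]; omega), ?_⟩
    have h1 := hv.2 0
    rw [map_zero, sub_zero] at h1
    show v.ord (f : K)⁻¹ = 0
    rw [Pl.ord_inv, h1, neg_zero]

/-- Two generators of a field of transcendence degree two are independent. -/
theorem ind_of (h : Algebra.trdeg ℂ K = 2) {f t : K}
    (hg : IntermediateField.adjoin ℂ {f, t} = ⊤) : AlgebraicIndependent ℂ ![f, t] := by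
  have e : Set.range ![f, t] = {f, t} := by
    rw [Matrix.range_cons, Matrix.range_cons, Matrix.range_empty, Set.union_empty]
    rfl
  have : Algebra.IsAlgebraic (Algebra.adjoin ℂ (Set.range ![f, t])) K := by
    rw [← IntermediateField.isAlgebraic_adjoin_iff_top, e, hg, Algebra.isAlgebraic_iff_isIntegral]
    exact Algebra.isIntegral_of_surjective IntermediateField.topEquiv.surjective
  exact (Algebra.IsAlgebraic.isTranscendenceBasis_of_le_trdeg_of_finite ℂ ![f, t]
    (by rw [h]; simp)).1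

/-- Generators of a tower. -/
theorem gen_of (k : IntermediateField ℂ K) {f : k} {t : K}
    (h1 : IntermediateField.adjoin ℂ {f} = ⊤) (h2 : IntermediateField.adjoin k {t} = ⊤) :
    IntermediateField.adjoin ℂ {(f : K), t} = ⊤ := by
  have a1 : IntermediateField.adjoin ℂ {f} ≤
      (IntermediateField.adjoin ℂ {(f : K), t}).comap k.val :=
    IntermediateField.adjoin_le_iff.2 (Set.singleton_subset_iff.2
      (IntermediateField.subset_adjoin ℂ {(f : K), t} (Or.inl rfl)))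
  have a2 : k ≤ IntermediateField.adjoin ℂ {(f : K), t} := fun z hz =>
    a1 (show (⟨z, hz⟩ : k) ∈ IntermediateField.adjoin ℂ {f} from h1 ▸ IntermediateField.mem_top)
  have a3 : IntermediateField.adjoin k {t} ≤ IntermediateField.extendScalars a2 :=
    IntermediateField.adjoin_le_iff.2 (Set.singleton_subset_iff.2
      (IntermediateField.subset_adjoin ℂ {(f : K), t} (Or.inr rfl)))
  exact eq_top_iff.2 fun z _ =>
    a3 (show z ∈ IntermediateField.adjoin k {t} from h2 ▸ IntermediateField.mem_top)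

end Br

theorem hor : HOR := by
  intro K _ _ S P f hf
  refine ⟨fun C hC => ⟨C.const_mem, fun c => PenB.ord_hor P C hC (f - algebraMap ℂ P.k c)⟩,
    fun v hv => ?_⟩
  rcases (Res.cent K S).ex v.ring hv.1 (Pl.ring_ne_top v) with ⟨x, hx⟩ | ⟨C, hC⟩
  · obtain ⟨g, g0, g1, g2⟩ := Br.ex_van P hf hv x
    exact absurd (hx.2 _ g1.1 ((Pl.ord_eq_zero_iff v (PenB.ne P g0)).1 g2).2)
      (g1.2.resolve_left (PenB.ne P g0))
  · obtain rfl : C.pl = v := Pl.ext' hC
    refine ⟨C, (PenB.dich P C).resolve_right ?_, rfl⟩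
    rintro ⟨p, hp⟩
    obtain ⟨x, hx, -⟩ := Br.ex_off S ∅ (Finset.notMem_empty C)
    obtain ⟨g, g0, g1, g2⟩ := Br.ex_van P hf hv x
    refine g1.2.resolve_left (PenB.ne P g0) ((P.isPi x g⁻¹).1 ?_)
    have h1 := PenB.ord_over P C p hp g
    have h2 := PenB.fib_pos P C p hp
    rw [show C.ord g = 0 from g2] at h1
    rw [P019P.ord_inv, PenB.pi_eq P C p x hp hx, (mul_eq_zero.1 h1.symm).resolve_left h2.ne']
    exact le_rfl

theorem bri (h1 : HOR) (h2 : H.GENF) (h3 : BASE) : BRI := by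
  rintro K _ _ S D hu ⟨S', P, T, a1, a2, a3, a4, a5⟩
  obtain ⟨t, t1, t2, t3⟩ := h2 K S' P T a1 a2 a3
  obtain ⟨f, f1, f2⟩ := h3 K S D S' P T hu a2 a4
  have hg := Br.gen_of P.k f2 t3
  refine ⟨f, t, Br.ind_of S.model.td hg, hg, fun C hC hz => ?_, fun v hz hv => ?_⟩
  · obtain ⟨C', c1, c2⟩ := (h1 K S' P f f1).2 _ hz
    refine c2 ▸ t2 C' c1 fun e => ?_
    obtain ⟨x, x1, x2⟩ := Br.ex_off S D hC
    exact a5 x x2 fun g hg => by rw [← e, c2]; exact x1 g hg
  · obtain ⟨C', c1, c2⟩ := (h1 K S' P f f1).2 _ hz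
    exact c2 ▸ a4 C' c1 fun e => t1 (by rw [← e, c2]; exact hv)

end Vale.Agent.P253Y.H
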