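import Vale.Agent.P253Y.H.Defs
import Vale.Agent.P253Y.Res.Cent

/-!
# P253Y, block H1: only finitely many points of the plane are missing
-/

set_option linter.all false

namespace Vale.Agent.P253Y.H

open Vale.Agent.P297Z Vale.Agent.P297Z.Sf

variable {K : Type} [Field K] [Algebra ℂ K]

namespace CofA

theorem eq_of_dom (S : Surf K) {u q : Pt S.W} {V : ValuationSubring K} (h : Ct.Dom u.ring V)
    (hq : ∀ f ∈ q.ring, f ∈ V) : u = q := by
  by_contra hne
  obtain ⟨w, hw, h1⟩ := S.all.sep u q hne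
  obtain ⟨w₀, hw₀, h2⟩ := u.exists_in
  have h3 := hw.2 w₀ hw₀ h2
  refine h3.2.elim (div_ne_zero h1.1 h2.1) fun h4 => h4 (h.2 _ h3.1 ?_)
  rw [inv_div]
  exact hq _ (h1.2 w₀ hw₀)

variable {v : Fin 2 → K} (hv : AlgebraicIndependent ℂ v)
include hv

theorem sub_ne (i : Fin 2) (c : ℂ) : v i - algebraMap ℂ K c ≠ 0 := fun h =>
  hv.transcendental i (sub_eq_zero.1 h ▸ isAlgebraic_algebraMap c)

/-- the maximal ideal of the point `z` -/
noncomputable def mx (z : Fin 2 → ℂ) : Ideal (Algebra.adjoin ℂ (Set.range v)) :=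
  RingHom.ker ((MvPolynomial.aeval z).comp hv.aevalEquiv.symm.toAlgHom)

theorem mx_max (z : Fin 2 → ℂ) : (mx hv z).IsMaximal :=
  RingHom.ker_isMaximal_of_surjective _ fun c => ⟨algebraMap ℂ _ c, by simp⟩

theorem mem_mx (z : Fin 2 → ℂ) (P : MvPolynomial (Fin 2) ℂ) :
    hv.aevalEquiv P ∈ mx hv z ↔ MvPolynomial.aeval z P = 0 := by
  simp [mx, RingHom.mem_ker]

theorem coe_sub (i : Fin 2) (c : ℂ) :
    (hv.aevalEquiv (MvPolynomial.X i - MvPolynomial.C c) : K) = v i - algebraMap ℂ K c := by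
  have := hv.algebraMap_aevalEquiv (MvPolynomial.X i - MvPolynomial.C c)
  rw [map_sub (MvPolynomial.aeval (R := ℂ) v), MvPolynomial.aeval_X, MvPolynomial.aeval_C] at this
  exact this

theorem exists_val (z : Fin 2 → ℂ) : ∃ V : ValuationSubring K, (∀ c, algebraMap ℂ K c ∈ V) ∧
    ∀ i, v i - algebraMap ℂ K (z i) ∈ V ∧ (v i - algebraMap ℂ K (z i))⁻¹ ∉ V := by
  obtain ⟨V, hV⟩ := Ct.exists_dom (loc _ (mx hv z) (mx_max hv z).isPrime)
  refine ⟨V, hV.const, fun i => ?_⟩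
  have h1 := le_loc _ (mx hv z) (mx_max hv z).isPrime
    (hv.aevalEquiv (MvPolynomial.X i - MvPolynomial.C (z i))).2
  refine ⟨coe_sub hv i (z i) ▸ hV.1 _ h1, fun h => ?_⟩
  rw [← coe_sub hv] at h
  refine (inv_mem_loc_iff _ (by rw [coe_sub]; exact sub_ne hv i _)).1 (hV.2 _ h1 h) ?_
  rw [mem_mx]
  simp

theorem dom_of {z : Fin 2 → ℂ} {V : ValuationSubring K} (hc : ∀ c, algebraMap ℂ K c ∈ V)
    (h : ∀ i, v i - algebraMap ℂ K (z i) ∈ V ∧ (v i - algebraMap ℂ K (z i))⁻¹ ∉ V) :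
    Ct.Dom (loc _ (mx hv z) (mx_max hv z).isPrime) V := by
  have hle : Algebra.adjoin ℂ (Set.range v) ≤ Ct.valAlg V hc := Algebra.adjoin_le (by
    rintro _ ⟨i, rfl⟩
    have := V.add_mem _ _ (h i).1 (hc (z i))
    rwa [sub_add_cancel] at this)
  have key : ∀ P, hv.aevalEquiv P - algebraMap ℂ _ (MvPolynomial.aeval z P) ∈ ctr hle := fun P => by
    induction P using MvPolynomial.induction_on with
    | C c =>
      rw [MvPolynomial.aeval_C, ← MvPolynomial.algebraMap_eq, AlgEquiv.commutes]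
      simp
    | add p q hp hq =>
      have := add_mem hp hq
      rwa [← add_sub_add_comm, ← map_add, ← map_add, ← map_add] at this
    | mul_X p i hp =>
      have h1 : hv.aevalEquiv (MvPolynomial.X i - MvPolynomial.C (z i)) ∈ ctr hle :=
        (mem_ctr hle _).2 (Or.inr (by rw [coe_sub]; exact (h i).2))
      have h2 := add_mem (Ideal.mul_mem_right (hv.aevalEquiv (MvPolynomial.X i)) _ hp)
        (Ideal.mul_mem_left _ (algebraMap ℂ _ (MvPolynomial.aeval z p)) h1)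
      rw [map_sub, ← MvPolynomial.algebraMap_eq, AlgEquiv.commutes] at h2
      rw [map_mul, map_mul, map_mul, MvPolynomial.aeval_X]
      convert h2 using 1
      ring
  have e : mx hv z = ctr hle := (mx_max hv z).eq_of_le (ctr_isPrime hle).ne_top fun a ha => by
    obtain ⟨P, rfl⟩ := hv.aevalEquiv.surjective a
    have := key P
    rwa [(mem_mx hv z P).1 ha, map_zero, sub_zero] at this
  rw [loc_congr _ (ctr_isPrime hle) e]
  exact Res.Cn.dom_ctr hle

theorem fin_ctr (h3 : Res.FINC) (hg : IntermediateField.adjoin ℂ (Set.range v) = ⊤) (S : Surf K) :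
    {z : Fin 2 → ℂ | ∃ G : Crv S.W, ∀ i, 0 < G.ord (v i - algebraMap ℂ K (z i))}.Finite := by
  have h1 := h3 K S (Algebra.adjoin ℂ (Set.range v)) (.adjoin_of_finite (Set.finite_range v))
    (IsFractionRing.of_field _ _ fun f => by
      obtain ⟨a, ha, b, hb, e⟩ := (IntermediateField.mem_adjoin_iff_div (F := ℂ)
        (S := Set.range v) (x := f)).1 (hg ▸ IntermediateField.mem_top)
      exact ⟨⟨a, ha⟩, ⟨b, hb⟩, e⟩)
  refine (h1.biUnion (t := fun G : Crv S.W =>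
    {z : Fin 2 → ℂ | ∀ i, 0 < G.ord (v i - algebraMap ℂ K (z i))}) fun G _ =>
    Set.Subsingleton.finite fun z hz z' hz' => funext fun i => ?_).subset ?_
  · by_contra hne
    have h2 := Pl.min_ord_le_add G.pl (sub_ne hv i (z i)) (neg_ne_zero.2 (sub_ne hv i (z' i)))
    rw [show v i - algebraMap ℂ K (z i) + -(v i - algebraMap ℂ K (z' i)) =
      algebraMap ℂ K (z' i - z i) by rw [map_sub]; ring, Pl.ord_neg] at h2
    have h4 := h2 ((map_ne_zero _).2 (sub_ne_zero.2 (Ne.symm hne)))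
    have h5 := G.ord_const (z' i - z i)
    have h6 := hz i
    have h7 := hz' i
    unfold Crv.ord at *
    omega
  · rintro z ⟨G, hG⟩
    refine Set.mem_biUnion (x := G) ⟨mx hv z, mx_max hv z, dom_of hv G.const_mem fun i =>
      ⟨(Pl.ord_nonneg_iff _ (sub_ne hv i _)).1 (hG i).le, fun h => ?_⟩⟩ hG
    have h2 := Pl.ord_nonneg_of_mem _ h
    have h4 := hG i
    rw [Pl.ord_inv] at h2
    unfold Crv.ord at *
    omega

end CofA

open CofA in
theorem cof (h1 : Res.DOM) (h2 : Res.CENT) (h3 : Res.FINC) : COF := by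
  intro K _ _ S D x y hP
  have hv := hP.ind
  set v : Fin 2 → K := ![x, y] with hvd
  have hfd : FiniteDimensional ℂ (Submodule.span ℂ (insert 1 (Set.range v))) :=
    FiniteDimensional.span_of_finite ℂ ((Set.finite_range v).insert 1)
  have one : (1 : K) ∈ Submodule.span ℂ (insert 1 (Set.range v)) :=
    Submodule.subset_span (Set.mem_insert _ _)
  obtain ⟨S', π, hπ, hW⟩ := h1 K S _ hfd fun e => one_ne_zero ((Submodule.eq_bot_iff _).1 e 1 one)
  refine (fin_ctr hv h3 (by rw [← hP.gen, hvd]; simp [Set.pair_comm]) S').subset fun z hz => ?_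
  by_contra hZ
  obtain ⟨V, hc, hV⟩ := exists_val hv z
  obtain ⟨p', hp'⟩ | ⟨G, rfl⟩ := (h2 K S').ex V hc fun e => (hV 0).2 (e ▸ ValuationSubring.mem_top _)
  swap
  · exact hZ ⟨G, fun i => Pl.ord_pos_of_inv_notMem _ (hV i).2⟩
  obtain ⟨w, hw, w0, hw'⟩ := hW p'
  have w1 : w ∈ V := (Submodule.span_le (p := (Ct.valAlg V hc).toSubmodule)).2 (by
    rintro _ (rfl | ⟨i, rfl⟩)
    · exact V.one_mem
    · have := V.add_mem _ _ (hV i).1 (hc (z i))
      rwa [sub_add_cancel] at this) hw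
  have w2 := hp'.2 _ (hw' 1 one) (by rwa [one_div, inv_inv])
  rw [one_div, inv_inv] at w2
  have vm : ∀ i, v i ∈ p'.ring := fun i => by
    have := mul_mem (hw' _ (Submodule.subset_span (Set.mem_insert_of_mem _ ⟨i, rfl⟩))) w2
    rwa [div_mul_cancel₀ _ w0] at this
  have van : ∀ i, p'.Van (v i - algebraMap ℂ K (z i)) := fun i =>
    ⟨sub_mem (vm i) (p'.ring.algebraMap_mem _), Or.inr fun h => (hV i).2 (hp'.1 _ h)⟩
  by_cases ho : Res.Off D (π p')
  · obtain ⟨z', hz'⟩ := hP.loc _ ⟨π p', ho, rfl⟩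
    refine hz ⟨_, ⟨π p', ho, rfl⟩, (funext fun i => ?_ : z' = z) ▸ hz'⟩
    by_contra hne
    refine (hV i).2 (hp'.1 _ ((hπ p').1 ((hz' _).2
      ⟨1, MvPolynomial.X i - MvPolynomial.C (z i), by simpa using sub_ne_zero.2 hne, ?_⟩)))
    rw [map_sub, MvPolynomial.aeval_X, MvPolynomial.aeval_C, map_one]
    exact inv_mul_cancel₀ (sub_ne hv i _)
  obtain ⟨E, hE, hpE⟩ : ∃ E ∈ D, (π p').On E := by simpa [Res.Off] using ho
  obtain ⟨t, -, t1, t2, -⟩ := S.all.irr_of_crv _ E hpE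
  have t0 : (t : K) ≠ 0 := fun e => by simp [Crv.ord, e] at t1
  have t3 : p'.Van t := (hπ p').2 _ ⟨t.2, Or.inr fun h => by
    have h4 := Pl.ord_nonneg_of_mem _ (hpE _ h)
    rw [Pl.ord_inv] at h4
    unfold Crv.ord at *
    omega⟩
  obtain ⟨G, g1, g2⟩ : ∃ G : Crv S'.W, p'.On G ∧ 0 < G.ord t := by
    by_contra hn
    refine t3.2.elim t0 fun h => h ((S'.all.normal p' _).1 (Or.inr fun G hG => ?_))
    have h4 := not_and.1 (not_exists.1 hn G) hG
    rw [Crv.ord, Pl.ord_inv, Finsupp.zero_apply]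
    unfold Crv.ord at *
    omega
  have g3 : ∀ f ∈ (π p').ring, f ∈ G.pl.ring := fun f hf => g1 f ((hπ p').1 hf)
  obtain ⟨a, b, hab⟩ | ⟨_, ⟨q, hq, rfl⟩, g4⟩ :=
    hP.crv G.pl G.const_mem (g1 _ (vm 0)) (g1 _ (vm 1))
  · have h4 : ∀ i, 0 < G.ord (v i - algebraMap ℂ K (![a, b] i)) := Fin.forall_fin_two.2 hab
    refine hZ ⟨G, fun i => ?_⟩
    by_cases e : ![a, b] i = z i
    · exact e ▸ h4 i
    have h5 := Pt.inv_mem (sub_mem (vm i) (p'.ring.algebraMap_mem (![a, b] i))) fun h => by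
      have := (van i).sub h
      rw [sub_sub_sub_cancel_left, ← map_sub] at this
      exact e (sub_eq_zero.1 (Pt.van_const this))
    have h6 := Pl.ord_nonneg_of_mem _ (g1 _ h5.2)
    have h7 := h4 i
    rw [Pl.ord_inv] at h6
    unfold Crv.ord at *
    omega
  obtain ⟨u, hu⟩ | ⟨C, hC⟩ := (h2 K S).ex G.pl.ring G.const_mem (Pl.ring_ne_top _)
  · exact hq E hE ((eq_of_dom S hu g4).symm.trans (eq_of_dom S hu g3) ▸ hpE)
  · have h4 := t2 C (fun f hf => hC ▸ g3 f hf) fun e => hq E hE fun f hf => e ▸ hC ▸ g4 f hf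
    rw [Crv.ord, Pl.ext' hC] at h4
    exact g2.ne' h4

end Vale.Agent.P253Y.H
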