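import Vale.Agent.P253Y.Res.Sk
import Vale.Agent.P253Y.G.Defs

/-!
# P253Y, block H1: from the ruling to the plane. Statements.

See notes/P253Y_H.md.
-/

set_option linter.all false

namespace Vale.Agent.P253Y.H

open Vale.Agent.P297Z Vale.Agent.P297Z.Sf
open Vale.Agent.P297 (Place)
open Res (Off)

variable {K : Type} [Field K] [Algebra ℂ K] {W : Submodule ℂ K}

/-- The local rings of the points outside `D`. -/
def rings (D : Finset (Crv W)) : Set (Subalgebra ℂ K) := {R | ∃ p : Pt W, Off D p ∧ p.ring = R}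

/-- The complement of `D` has no cyclic etale covering. -/
def Kums (D : Finset (Crv W)) : Prop :=
  ∀ (f : K) (n : ℕ), f ≠ 0 → 1 ≤ n → (∀ C, C ∉ D → (n : ℤ) ∣ C.ord f) → ∃ g : K, g ^ n = f

/-- The complement of `D` has trivial class group and only constant units. -/
structure Ufd (D : Finset (Crv W)) : Prop where
  prin : ∀ C, C ∉ D → ∃ g : K, g ≠ 0 ∧ C.ord g = 1 ∧ ∀ C', C' ∉ D → C' ≠ C → C'.ord g = 0
  unit : ∀ g : K, g ≠ 0 → (∀ C, C ∉ D → C.ord g = 0) → ∃ c : ℂ, g = algebraMap ℂ K c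

/-- The place `P` is trivial on `ℂ(f)`. -/
def Hz (f : K) (P : Place K) : Prop :=
  (∀ c : ℂ, algebraMap ℂ K c ∈ P.ring) ∧ ∀ c : ℂ, P.ord (f - algebraMap ℂ K c) = 0

/-- The generic fibre of `f` on the complement of `D` is the affine line with coordinate `t`. -/
structure Fibr (D : Finset (Crv W)) (f t : K) : Prop where
  ind : AlgebraicIndependent ℂ ![f, t]
  gen : IntermediateField.adjoin ℂ {f, t} = ⊤
  reg : ∀ C, C ∉ D → Hz f C.pl → t ∈ C.pl.ring
  all : ∀ P : Place K, Hz f P → t ∈ P.ring → ∃ C, C ∉ D ∧ C.pl = P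

/-- Moreover `x` is regular and all its fibres are irreducible and reduced. -/
structure Lin (D : Finset (Crv W)) (x t : K) : Prop extends Fibr D x t where
  mem : ∀ C, C ∉ D → x ∈ C.pl.ring
  fib : ∀ c : ℂ, ∃ C, C ∉ D ∧ C.ord (x - algebraMap ℂ K c) = 1 ∧
    ∀ C', C' ∉ D → 0 < C'.ord (x - algebraMap ℂ K c) → C' = C

/-- Moreover `y` is regular and not constant on the fibres. -/
structure Crd (D : Finset (Crv W)) (x y : K) : Prop extends Lin D x y where
  mem' : ∀ C, C ∉ D → y ∈ C.pl.ring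
  nc : ∀ C, C ∉ D → ∀ a b : ℂ,
    ¬ (0 < C.ord (x - algebraMap ℂ K a) ∧ 0 < C.ord (y - algebraMap ℂ K b))

/-- `R` is the local ring of the plane with coordinates `x`, `y` at the point `z`. -/
def IsLoc (x y : K) (z : Fin 2 → ℂ) (R : Subalgebra ℂ K) : Prop :=
  ∀ f, f ∈ R ↔ ∃ P Q : MvPolynomial (Fin 2) ℂ, MvPolynomial.eval z Q ≠ 0 ∧
    f * MvPolynomial.aeval ![x, y] Q = MvPolynomial.aeval ![x, y] P

/-- The local rings of `𝓡` are those of an open part of the plane that meets every curve. -/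
structure Plane (𝓡 : Set (Subalgebra ℂ K)) (x y : K) : Prop where
  ind : AlgebraicIndependent ℂ ![x, y]
  gen : IntermediateField.adjoin ℂ {x, y} = ⊤
  loc : ∀ R ∈ 𝓡, ∃ z, IsLoc x y z R
  crv : ∀ P : Place K, (∀ c : ℂ, algebraMap ℂ K c ∈ P.ring) → x ∈ P.ring → y ∈ P.ring →
    (∃ a b : ℂ, 0 < P.ord (x - algebraMap ℂ K a) ∧ 0 < P.ord (y - algebraMap ℂ K b)) ∨
      ∃ R ∈ 𝓡, ∀ f ∈ R, f ∈ P.ring

/-- Only finitely many points of the plane are missing. -/
def Cof (𝓡 : Set (Subalgebra ℂ K)) (x y : K) : Prop := {z | ¬ ∃ R ∈ 𝓡, IsLoc x y z R}.Finite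

/-- The target. -/
def H1A : Prop := ForAll fun {K} _ _ S => ∀ D, Mp.Cls S D → Kums D → Mp.Out S D →
  ∃ x y : K, Plane (rings D) x y ∧ Cof (rings D) x y

/-! ### The rows -/

/-- Numerically trivial divisors are principal. -/
def NP : Prop := ForAll fun {K} _ _ S => ∀ D, Mp.Cls S D →
  ∀ L : Sf.Div S.W, Mp.Nz L → ∃ g : K, g ≠ 0 ∧ div S.W g = L

/-- The class group and the units. -/
def UFD : Prop := ForAll fun S => ∀ D, Mp.Cls S D → Kums D → Ufd D

/-- The horizontal curves. -/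
def HOR : Prop := ForAll fun {K} _ _ S => ∀ (P : Pen S) (f : P.k), Transcendental ℂ f →
  (∀ C : Crv S.W, P.Hor C → Hz (f : K) C.pl) ∧
    ∀ v : Place K, Hz (f : K) v → ∃ C : Crv S.W, P.Hor C ∧ C.pl = v

/-- The coordinate on the generic fibre. -/
def GENF : Prop := ForAll fun {K} _ _ S => ∀ (P : Pen S) (T : Crv S.W), inter S.kap P.F = -2 →
  P.Hor T → inter P.F T.cl = 1 → ∃ t : K, t ∉ T.pl.ring ∧
    (∀ C, P.Hor C → C ≠ T → t ∈ C.pl.ring) ∧ IntermediateField.adjoin P.k {t} = ⊤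

/-- The base of the ruling is rational. -/
def BASE : Prop := ForAll fun {K} _ _ S => ∀ (D : Finset (Crv S.W)) (S' : Surf K) (P : Pen S')
  (T : Crv S'.W), Ufd D → P.Hor T → (∀ C, P.Hor C → C ≠ T → C.pl ∈ Mp.out S D) →
  ∃ f : P.k, Transcendental ℂ f ∧ IntermediateField.adjoin ℂ {f} = ⊤

/-- The fibration by affine lines. -/
def BRI : Prop := ForAll fun {K} _ _ S => ∀ D, Ufd D → Mp.Out S D → ∃ f t : K, Fibr D f t

/-- The first coordinate. -/
def RING1 : Prop := ForAll fun {K} _ _ S => ∀ (D : Finset (Crv S.W)) (f t : K), Ufd D →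
  Fibr D f t → ∃ x, Lin D x t

/-- The second coordinate. -/
def RING2 : Prop := ForAll fun {K} _ _ S => ∀ (D : Finset (Crv S.W)) (x t : K),
  Lin D x t → ∃ y, Crd D x y

/-- The local rings. -/
def RING3 : Prop := ForAll fun {K} _ _ S => ∀ (D : Finset (Crv S.W)) (x y : K),
  Crd D x y → Plane (rings D) x y

/-- The missing points. -/
def COF : Prop := ForAll fun {K} _ _ S => ∀ (D : Finset (Crv S.W)) (x y : K),
  Plane (rings D) x y → Cof (rings D) x y

theorem h1a_of (h1 : UFD) (h2 : BRI) (h3 : RING1) (h4 : RING2) (h5 : RING3) (h6 : COF) : H1A := by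
  intro K _ _ S D hc hk ho
  have u := h1 K S D hc hk
  obtain ⟨f, t, h⟩ := h2 K S D u ho
  obtain ⟨x, h⟩ := h3 K S D f t u h
  obtain ⟨y, h⟩ := h4 K S D x t h
  exact ⟨x, y, h5 K S D x y h, h6 K S D x y (h5 K S D x y h)⟩

end Vale.Agent.P253Y.H
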