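import Vale.Agent.P253Y.H.Defs
import Vale.Agent.P253Y.F.Dict

/-!
# P253Y, block H1: the biholomorphism
-/

set_option linter.all false

open scoped Manifold ContDiff Topology
open Set Metric Filter
open Vale.Agent.P272.K (Cm Chart)
open Vale.Agent.P253Z Vale.Agent.P253Z.T2

namespace Vale.Agent.P253Y.H

open F (mp J An)

/-- an open part of the plane with finite complement and one end is the plane -/
theorem target_univ {M : Type} [TopologicalSpace M] (e : OpenPartialHomeomorph M (Cm 2))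
    (hs : e.source = univ) (hf : e.targetᶜ.Finite)
    (hE : ∀ Q : Set M, IsCompact Q → ∃ Q', IsCompact Q' ∧ ∀ x ∉ Q', ∀ y ∉ Q', JoinedIn Qᶜ x y) :
    e.target = univ := by
  refine eq_univ_of_forall fun z₀ => by_contra fun h0 => ?_
  have hc : Continuous e := continuousOn_univ.1 (hs ▸ e.continuousOn)
  have hm : ∀ x, x ∈ e.source := fun x => hs ▸ mem_univ x
  obtain ⟨r, hr, hb⟩ := nhds_basis_closedBall.mem_iff.1
    ((hf.subset (diff_subset (t := {z₀}))).isClosed.isOpen_compl.mem_nhds (x := z₀) (by simp))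
  have hb' : ∀ z ∈ closedBall z₀ r, z ≠ z₀ → z ∈ e.target := fun z hz h1 =>
    by_contra fun h2 => hb hz ⟨h2, h1⟩
  obtain ⟨Q, hQ, h⟩ := hE (e.symm '' sphere z₀ r) ((isCompact_sphere z₀ r).image_of_continuousOn
    (e.continuousOn_symm.mono fun z hz => hb' z (sphere_subset_closedBall hz)
      (ne_of_mem_sphere hz hr.ne')))
  have hQ' := hQ.image hc
  have k : ∀ z ∈ e.target, z ∉ e '' Q → e.symm z ∉ Q := fun z hz h1 h2 =>
    h1 ⟨_, h2, e.right_inv hz⟩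
  have h0' : z₀ ∈ (e '' Q)ᶜ := by
    rintro ⟨x, -, rfl⟩
    exact h0 (e.map_source (hm x))
  obtain ⟨z₁, ⟨h1, h2⟩, h3⟩ := ((eventually_nhdsWithin_of_eventually_nhds
    ((hQ'.isClosed.isOpen_compl.eventually_mem h0').and
      (isOpen_ball.eventually_mem (mem_ball_self hr)))).and
      (self_mem_nhdsWithin (a := z₀) (s := {z₀}ᶜ))).exists
  obtain ⟨z₂, ⟨h4, h5⟩, h6⟩ := ((Filter.Eventually.and hQ'.compl_mem_cocompact
    (isCompact_closedBall z₀ r).compl_mem_cocompact).and hf.isCompact.compl_mem_cocompact).exists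
  have t1 := hb' z₁ (ball_subset_closedBall h2) h3
  have t2 : z₂ ∈ e.target := not_not.1 h6
  obtain ⟨γ, hγ⟩ := h _ (k z₁ t1 h1) _ (k z₂ t2 h4)
  obtain ⟨t, ht⟩ := mem_range_of_exists_le_of_exists_ge (c := r)
    (f := fun t => dist (e (γ t)) z₀) (by fun_prop)
    ⟨0, by simpa [e.right_inv t1] using (mem_ball.1 h2).le⟩
    ⟨1, by simpa [e.right_inv t2] using (not_le.1 h5).le⟩
  exact hγ t ⟨_, ht, e.left_inv (hm _)⟩

variable {M : Type} [MetricSpace M] [ChartedSpace (Cm 2) M] [IsManifold 𝓘(ℂ, Cm 2) 1 M]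
  {T : ℕ → Submodule ℂ (M → ℂ)} {K : Type} [Field K] [Algebra ℂ K] (ff : FF 2 T K) {x y : K}

theorem val_aeval {q : M} (hx : x ∈ ff.O q) (hy : y ∈ ff.O q) (P : MvPolynomial (Fin 2) ℂ) :
    MvPolynomial.aeval ![x, y] P ∈ ff.O q ∧
      ff.val (MvPolynomial.aeval ![x, y] P) q = MvPolynomial.eval (mp ff x y q) P := by
  induction P using MvPolynomial.induction_on with
  | C c => simp [ff.val_const]
  | add P Q h1 h2 =>
    rw [map_add, map_add]
    exact ⟨add_mem h1.1 h2.1, by rw [ff.val_add _ _ h1.1 _ h2.1, h1.2, h2.2]⟩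
  | mul_X P i h =>
    rw [map_mul, map_mul, MvPolynomial.aeval_X, MvPolynomial.eval_X]
    exact ⟨mul_mem h.1 (F.mem2 hx hy i), by rw [ff.val_mul _ _ h.1 _ (F.mem2 hx hy i), h.2]; rfl⟩

theorem IsLoc.mem {z : Fin 2 → ℂ} {R : Subalgebra ℂ K} (h : IsLoc x y z R) : x ∈ R ∧ y ∈ R :=
  ⟨(h x).2 ⟨MvPolynomial.X 0, 1, by simp, by simp⟩, (h y).2 ⟨MvPolynomial.X 1, 1, by simp, by simp⟩⟩

theorem mp_eq (hi : AlgebraicIndependent ℂ ![x, y]) {q : M} {z : Fin 2 → ℂ}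
    (h : IsLoc x y z (ff.O q)) : mp ff x y q = z := by
  funext i
  by_contra hne
  set L : MvPolynomial (Fin 2) ℂ := MvPolynomial.X i - MvPolynomial.C (mp ff x y q i) with hL
  have h1 : MvPolynomial.eval z L ≠ 0 := by simpa [hL, sub_eq_zero] using Ne.symm hne
  have h2 : MvPolynomial.aeval ![x, y] L ≠ 0 := fun k =>
    h1 (by rw [(injective_iff_map_eq_zero _).1 hi L k, map_zero])
  have h3 := (h _).2 ⟨1, L, h1, by rw [inv_mul_cancel₀ h2, map_one]⟩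
  have h4 := val_aeval ff h.mem.1 h.mem.2 L
  have h5 := ff.val_mul q _ h3 _ h4.1
  rw [inv_mul_cancel₀ h2, h4.2, ← map_one (algebraMap ℂ K), ff.val_const] at h5
  simp [hL] at h5

/-- an element of the local ring is an analytic function of the coordinates -/
theorem exists_an (hi : AlgebraicIndependent ℂ ![x, y]) {q : M} {z : Fin 2 → ℂ}
    (h : IsLoc x y z (ff.O q)) {u : K} (hu : u ∈ ff.O q) : ∃ g : Cm 2 → ℂ,
      DifferentiableAt ℂ g z ∧ ∀ᶠ w in 𝓝 q, ff.val u w = g (mp ff x y w) := by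
  obtain ⟨P, Q, h1, h2⟩ := (h u).1 hu
  have hd : ∀ R : MvPolynomial (Fin 2) ℂ, DifferentiableAt ℂ (fun ζ => MvPolynomial.eval ζ R) z :=
    fun R => (AnalyticOnNhd.eval_mvPolynomial R z (mem_univ _)).differentiableAt
  refine ⟨fun ζ => MvPolynomial.eval ζ P / MvPolynomial.eval ζ Q, by
    simp only [div_eq_mul_inv]
    exact (hd P).fun_mul ((hd Q).fun_inv h1), ?_⟩
  have hc : ContinuousAt (mp ff x y) q := VS.cont_of (mem_chart_source _ q)
    (F.an_mp ff h.mem.1 h.mem.2 _ (IsManifold.chart_mem_maximalAtlas q) (mem_chart_source _ q))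
  have h3 := (hd Q).continuousAt.eventually_ne h1
  rw [← mp_eq ff hi h] at h3
  filter_upwards [hc.eventually h3, ff.nhds q _ hu, ff.nhds q _ h.mem.1, ff.nhds q _ h.mem.2]
    with w k1 k2 k3 k4
  rw [eq_div_iff k1, ← (val_aeval ff k3 k4 Q).2, ← (val_aeval ff k3 k4 P).2, ← h2,
    ff.val_mul w _ k2 _ (val_aeval ff k3 k4 Q).1]

theorem J_ne (hi : AlgebraicIndependent ℂ ![x, y]) {q : M} {z : Fin 2 → ℂ}
    (h : IsLoc x y z (ff.O q)) {u v : K} (hu : u ∈ ff.O q) (hv : v ∈ ff.O q)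
    (hJ : J (mp ff u v) q ≠ 0) : J (mp ff x y) q ≠ 0 := by
  choose g h1 h2 using fun i => exists_an ff hi h (F.mem2 hu hv i)
  have hq := mem_chart_source (Cm 2) q
  set e := chartAt (Cm 2) q
  have h3 : (fun ζ => mp ff u v (e.symm ζ)) =ᶠ[𝓝 (e q)]
      (fun ζ i => g i ζ) ∘ fun ζ => mp ff x y (e.symm ζ) := by
    filter_upwards [(e.tendsto_symm hq).eventually (eventually_all.2 h2)] with ζ k using funext k
  have h4 := F.jd_ne.1 hJ
  have h5 := F.an_mp ff h.mem.1 h.mem.2 _ (IsManifold.chart_mem_maximalAtlas q) hq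
  rw [h3.fderiv_eq, fderiv_comp _ (by
    rw [e.left_inv hq, mp_eq ff hi h]
    exact differentiableAt_pi.2 h1) h5.differentiableAt] at h4
  have h6 : Function.Injective (fderiv ℂ (fun ζ => mp ff x y (e.symm ζ)) (e q)) :=
    Function.Injective.of_comp (f := fderiv ℂ (fun ζ i => g i ζ) _) h4.1
  exact F.jd_ne.2 ⟨h6, (LinearMap.injective_iff_surjective
    (f := (fderiv ℂ (fun ζ => mp ff x y (e.symm ζ)) (e q) : Cm 2 →ₗ[ℂ] Cm 2))).1 h6⟩

theorem bihol (a : B1a 2 M) [Nonempty M] (sep : ∀ p q, ff.O p = ff.O q → p = q)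
    (jet : ∀ p, ∃ u ∈ ff.O p, ∃ v ∈ ff.O p, J (mp ff u v) p ≠ 0)
    (hE : ∀ Q : Set M, IsCompact Q → ∃ Q', IsCompact Q' ∧ ∀ x ∉ Q', ∀ y ∉ Q', JoinedIn Qᶜ x y)
    (hP : Plane (range ff.O) x y) (hC : Cof (range ff.O) x y) :
    ∃ Φ : M ≃ₘ^1⟮𝓘(ℂ, Cm 2), 𝓘(ℂ, Cm 2)⟯ Cm 2,
      ∀ p, x ∈ ff.O p ∧ y ∈ ff.O p ∧ Φ p = mp ff x y p := by
  have hl : ∀ p, IsLoc x y (mp ff x y p) (ff.O p) := fun p => by
    obtain ⟨z, hz⟩ := hP.loc _ (mem_range_self p)
    rwa [mp_eq ff hP.ind hz]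
  obtain ⟨e, he, h1, h2⟩ := F.exists_chart a (Φ := mp ff x y) isOpen_univ
    (fun p _ => ⟨F.an_mp ff (hl p).mem.1 (hl p).mem.2, by
      obtain ⟨u, hu, v, hv, h⟩ := jet p
      exact J_ne ff hP.ind (hl p) hu hv h⟩)
    fun p _ q _ h => sep p q (Subalgebra.ext fun f => (hl p f).trans (h ▸ (hl q f).symm))
  have h3 := target_univ e h1 (hC.subset fun z hz ⟨_, ⟨p, rfl⟩, h⟩ =>
    hz (mp_eq ff hP.ind h ▸ h2 p ▸ e.map_source (h1 ▸ mem_univ p))) hE
  exact ⟨⟨(e.toHomeomorphOfSourceEqUnivTargetEqUniv h1 h3).toEquiv,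
    contMDiffOn_univ.1 (h1 ▸ contMDiffOn_of_mem_maximalAtlas he),
    contMDiffOn_univ.1 (h3 ▸ contMDiffOn_symm_of_mem_maximalAtlas he)⟩,
    fun p => ⟨(hl p).mem.1, (hl p).mem.2, h2 p⟩⟩

end Vale.Agent.P253Y.H
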