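import Vale.Agent.P253Y.Spec
import Vale.Agent.P253Y.H.End

/-!
# P253Y, block H1: no point of the plane is missing
-/

set_option linter.all false

open scoped Manifold ContDiff Bundle
open Bundle MeasureTheory Set Vale.Agent.P253.Mfd
open Vale.Agent.P272.K (Cm)
open Vale.Agent.P253Z Vale.Agent.P253Z.T2

namespace Vale.Agent.P253Y.H

variable {n : ℕ} {M : Type} [MetricSpace M] [ChartedSpace (Cm n) M]
  [RiemannianBundle (fun x : M => TangentSpace 𝓘(ℝ, Cm n) x)] [MeasurableSpace M] {μ : Measure M}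

theorem O_inj (h : PK2 n μ) {p : M} {F : Fr n μ p} {K : Type} [Field K] [Algebra ℂ K]
    (ff : FF n F.Tame K) (x y : M) (e : ff.O x = ff.O y) : x = y := by
  by_contra hne
  obtain ⟨m, hm, a, b, ha, hb, h1, h2, h3, h4⟩ := h x y hne
  obtain ⟨f, hf⟩ := ff.rat m a (tame_of_inH F hm ha) b (tame_of_inH F hm hb)
    (Function.ne_iff.2 ⟨x, h3⟩)
  have h5 : ff.val f y ≠ 0 := (hf y h4).2 ▸ div_ne_zero h2 h4
  have h6 := ff.val_mul x _ (hf x h3).1 _ (e ▸ ff.inv y f (hf y h4).1 h5)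
  rw [mul_inv_cancel₀ fun k => h5 (by rw [k, ← map_zero (algebraMap ℂ K), ff.val_const]),
    ← map_one (algebraMap ℂ K), ff.val_const, (hf x h3).2, h1] at h6
  simp at h6

end Vale.Agent.P253Y.H

namespace Vale.Agent.P253Y.H

variable {M : Type} [MetricSpace M] [ChartedSpace (Cm 2) M] [IsManifold 𝓘(ℂ, Cm 2) 1 M]
  [RiemannianBundle (fun x : M => TangentSpace 𝓘(ℝ, Cm 2) x)] [MeasurableSpace M] {μ : Measure M}

theorem en_of (A : All 2 μ)
    (jet : ForF μ fun _ _ _ _ _ ff => ∀ y, ∃ u ∈ ff.O y, ∃ v ∈ ff.O y, F.J (F.mp ff u v) y ≠ 0)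
    (hE : ∀ Q : Set M, IsCompact Q → ∃ Q', IsCompact Q' ∧ ∀ x ∉ Q', ∀ y ∉ Q', JoinedIn Qᶜ x y) :
    EN μ := by
  intro p F K _ _ ff S D x y h1 h2 hP hC
  have : Nonempty M := ⟨p⟩
  have e : rings D = range ff.O := Set.ext fun R =>
    ⟨fun ⟨q, k1, k2⟩ => (h1 q k1).imp fun _ k => k.trans k2, fun ⟨m, k⟩ =>
      (h2 m).imp fun _ k' => ⟨k'.1, k'.2.symm.trans k⟩⟩
  rw [e] at hP hC
  obtain ⟨Φ, h⟩ := bihol ff A.a (O_inj A.pk2 ff) (jet p F K ff) hE hP hC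
  refine ⟨Φ, fun q => (h q).2.2.trans (funext fun i => ?_)⟩
  fin_cases i <;> rfl

end Vale.Agent.P253Y.H
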