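import Vale.Agent.P253Y.H.Defs
import Vale.Agent.P253Y.G.Basic
import Vale.Agent.P297Y.Alg.Penn
import Vale.Agent.P297Y.Alg.Penb

/-! P253Y, block H1: the coordinate on the generic fibre. -/

set_option linter.all false

namespace Vale.Agent.P253Y.H

open Vale.Agent.P297Z Vale.Agent.P297Z.Sf Vale.Agent.P297Z.Sf.Mp Polynomial

namespace GenfA

variable {K : Type} [Field K] [Algebra ℂ K] {S : Surf K} {P : Pen S} {T : Crv S.W} {t : K}

theorem exists_t (h1 : inter S.kap P.F = -2) (hT : P.Hor T) (h2 : inter P.F T.cl = 1) :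
    ∃ t : K, t ≠ 0 ∧ T.ord t = -1 ∧ ∀ C, P.Hor C → C ≠ T → t ∈ C.pl.ring := by
  have hA := S.all
  have hB := penb K S P
  have hN := penn cs penb K S P
  obtain ⟨p, hp⟩ : ∃ p, P.F = P.fib p := ⟨_, rfl⟩
  obtain ⟨n, hn⟩ : ∃ n : ℕ,
      2 - (2 * chi (0 : Sf.Div S.W) + inter T.cl T.cl - inter S.kap T.cl) < n :=
    ⟨_, (Int.self_le_toNat _).trans_lt (Nat.cast_lt.2 (Nat.lt_succ_self _))⟩
  have e : P.pull (Finsupp.single p n) = (n : ℤ) • P.F := by rw [P.pull_single, hp]
  have h3 := hB.h0_pull (Finsupp.single p n)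
  have h4 := P019P.l_sub_le (k := ℂ) (D := 0) (E := Finsupp.single p n)
    (Finsupp.single_nonneg.2 (Int.natCast_nonneg n))
  rw [P019P.l_zero, P019P.dg_sgl, map_zero, ← h3, e] at h4
  have h5 := hA.le (T.cl + (n : ℤ) • P.F)
  have h6 := hA.rr (T.cl + (n : ℤ) • P.F)
  rw [h0_bot (Rul.bot_of_neg hA hN.F_nef (X := S.kap - (T.cl + (n : ℤ) • P.F)) (by
    rw [i_sub', i_add', i_smul', inter_comm P.F S.kap, h1, h2, hN.F_sq]
    norm_num))] at h5
  simp only [i_add, i_add', i_smul, i_smul', h1, h2, hN.F_sq, inter_comm T.cl P.F] at h6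
  obtain ⟨t, t1, t2⟩ : ∃ t ∈ H0 (T.cl + (n : ℤ) • P.F), t ∉ H0 ((n : ℤ) • P.F) := by
    by_contra hc
    push Not at hc
    have := Hd.fin hA ((n : ℤ) • P.F)
    have h7 : h0 (T.cl + (n : ℤ) • P.F) ≤ h0 ((n : ℤ) • P.F) :=
      Nat.cast_le.2 (Submodule.finrank_mono hc)
    push_cast at h4
    omega
  have t0 : t ≠ 0 := fun e => t2 (Or.inl e)
  have h7 : ∀ C, P.Hor C → ((n : ℤ) • P.F) C = 0 := fun C hC => e ▸ hB.pull_hor C hC _
  have h8 := fun C => t1.resolve_left t0 C trivial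
  refine ⟨t, t0, by_contra fun hc => t2 (Or.inr fun C _ => ?_), fun C hC hC' => ?_⟩
  · have h9 := h8 C
    by_cases e' : C = T
    · rw [e', Finsupp.add_apply, cl_self, h7 T hT] at h9
      rw [e', h7 T hT]
      omega
    · rwa [Finsupp.add_apply, cl_ne e', zero_add] at h9
  · have h9 := h8 C
    rw [Finsupp.add_apply, cl_ne hC', h7 C hC, add_zero, add_zero] at h9
    exact (Pl.ord_nonneg_iff _ t0).1 h9

theorem poly (hT : P.Hor T) (h2 : inter P.F T.cl = 1) (t0 : t ≠ 0) (t1 : T.ord t = -1)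
    (t2 : ∀ C, P.Hor C → C ≠ T → t ∈ C.pl.ring) (n : ℕ) :
    ∀ g : K, (∀ C, P.Hor C → C ≠ T → g ∈ C.pl.ring) → g / t ^ n ∈ T.pl.ring →
      g ∈ IntermediateField.adjoin P.k {t} := by
  have := Fact.mk hT
  have hs : Function.Surjective (algebraMap P.k T.Fn) := by
    have h3 := (penn cs penb K S P).deg T
    rw [h2] at h3
    exact (Algebra.finrank_eq_one_iff_bijective_algebraMap.1 (by exact_mod_cast h3.symm)).2
  induction n with
  | zero =>
    intro g h3 h4
    have h5 := (penb K S P).vert g fun C hC => (em (C = T)).elim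
      (fun e => by simpa [e] using h4) (h3 C hC)
    exact IntermediateField.algebraMap_mem _ (⟨g, h5⟩ : P.k)
  | succ n ih =>
    intro g h3 h4
    obtain ⟨c, hc⟩ := hs (T.rs (g / t ^ (n + 1)))
    have h5 := (T.rs_eq_zero (sub_mem h4 (hT c))).1 (by
      rw [T.rs_sub h4 (hT c), ← P.algebraMap_fn, hc, sub_self])
    have h6 := ih (g - c * t ^ (n + 1))
      (fun C hC e => sub_mem (h3 C hC e) (mul_mem (hC c) (pow_mem (t2 C hC e) _))) (by
        rw [show (g - c * t ^ (n + 1)) / t ^ n = (g / t ^ (n + 1) - c) * t by field_simp; ring]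
        by_cases h0 : g / t ^ (n + 1) - c = 0
        · rw [h0, zero_mul]
          exact zero_mem _
        have h7 := h5.resolve_left h0
        unfold Crv.ord at *
        rw [← Pl.ord_nonneg_iff _ (mul_ne_zero h0 t0), Pl.ord_mul _ h0 t0]
        omega)
    rw [← sub_add_cancel g (c * t ^ (n + 1))]
    exact add_mem h6 (mul_mem (IntermediateField.algebraMap_mem _ c)
      (pow_mem (IntermediateField.mem_adjoin_simple_self _ t) _))

theorem rs_aeval {C : Crv S.W} [h : Fact (P.Hor C)] (ht : t ∈ C.pl.ring) (μ : P.k[X]) :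
    aeval t μ ∈ C.pl.ring ∧ C.rs (aeval t μ) = aeval (C.rs t) μ := by
  induction μ using Polynomial.induction_on with
  | C a => exact ⟨by simpa using h.out a, by simpa using (P.algebraMap_fn C a).symm⟩
  | add p q hp hq => exact ⟨by simpa using add_mem hp.1 hq.1, by
      rw [map_add, map_add, C.rs_add hp.1 hq.1, hp.2, hq.2]⟩
  | monomial n a ih =>
    rw [pow_succ, ← mul_assoc, map_mul, aeval_X, map_mul (aeval (C.rs t)), aeval_X]
    exact ⟨mul_mem ih.1 ht, by rw [C.rs_mul ih.1 ht, ih.2]⟩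

theorem exists_q (hT : P.Hor T) (h : t ∉ T.pl.ring) {C : Crv S.W} (hC : P.Hor C)
    (ht : t ∈ C.pl.ring) : ∃ μ : P.k[X], aeval t μ ≠ 0 ∧ 0 < C.ord (aeval t μ) := by
  have := Fact.mk hC
  have hi : IsIntegral P.k (C.rs t) := Algebra.IsIntegral.isIntegral _
  have h1 := rs_aeval ht (minpoly P.k (C.rs t))
  have h2 : aeval t (minpoly P.k (C.rs t)) ≠ 0 := fun e =>
    h (hT ⟨t, P.closed t ⟨_, minpoly.ne_zero hi, e⟩⟩)
  exact ⟨_, h2, ((C.rs_eq_zero h1.1).1 (h1.2.trans (minpoly.aeval _ _))).resolve_left h2⟩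

end GenfA

open GenfA

theorem genf : GENF := by
  classical
  intro K _ _ S P T h1 hT h2
  obtain ⟨t, t0, t1, t2⟩ := exists_t h1 hT h2
  have t3 : t ∉ T.pl.ring := fun h => by
    have := Pl.ord_nonneg_of_mem _ h
    unfold Crv.ord at t1
    omega
  have key : ∀ (B : Finset (Crv S.W)) (g : K), g ≠ 0 →
      (∀ C, P.Hor C → C ≠ T → C ∉ B → g ∈ C.pl.ring) → g ∈ IntermediateField.adjoin P.k {t} := by
    intro B
    induction B using Finset.induction_on with
    | empty =>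
      intro g g0 h
      refine poly hT h2 t0 t1 t2 (-T.ord g).toNat g (fun C h3 h4 => h C h3 h4 (by simp)) ?_
      unfold Crv.ord at *
      rw [← Pl.ord_nonneg_iff _ (div_ne_zero g0 (pow_ne_zero _ t0)),
        Pl.ord_div _ g0 (pow_ne_zero _ t0), Pl.ord_pow, t1]
      omega
    | insert C B _ ih =>
      intro g g0 h
      by_cases hC : P.Hor C ∧ C ≠ T
      swap
      · exact ih g g0 fun C' h3 h4 h5 => h C' h3 h4 fun h6 =>
          (Finset.mem_insert.1 h6).elim (fun e => hC (e ▸ ⟨h3, h4⟩)) h5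
      obtain ⟨μ, q0, hq⟩ := exists_q hT t3 hC.1 (t2 C hC.1 hC.2)
      have h3 : aeval t μ ∈ IntermediateField.adjoin P.k {t} :=
        IntermediateField.algebra_adjoin_le_adjoin _ _ (aeval_mem_adjoin_singleton _ _)
      have h4 := pow_ne_zero (-C.ord g).toNat q0
      have h5 := ih _ (mul_ne_zero h4 g0) fun C' h5 h6 h7 => by
        by_cases e : C' = C
        · have h8 : -C.ord g ≤ (-C.ord g).toNat := Int.self_le_toNat _
          unfold Crv.ord at *
          rw [e, ← Pl.ord_nonneg_iff _ (mul_ne_zero h4 g0), Pl.ord_mul _ h4 g0, Pl.ord_pow]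
          nlinarith [Int.natCast_nonneg (-C.pl.ord g).toNat]
        · have := Fact.mk h5
          exact mul_mem (pow_mem (rs_aeval (t2 C' h5 h6) μ).1 _)
            (h C' h5 h6 fun h8 => (Finset.mem_insert.1 h8).elim e h7)
      simpa [mul_div_cancel_left₀ _ h4] using div_mem h5 (pow_mem h3 (-C.ord g).toNat)
  refine ⟨t, t3, t2, eq_top_iff.2 fun g _ => ?_⟩
  by_cases g0 : g = 0
  · exact g0 ▸ zero_mem _
  refine key (S.all.fin_div g).toFinset g g0 fun C _ _ h => (Pl.ord_nonneg_iff _ g0).1 ?_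
  simpa using (not_not.1 fun e => h ((Set.Finite.mem_toFinset _).2 e) : C.ord g = 0).ge

end Vale.Agent.P253Y.H
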