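import Vale.Agent.P253Y.H.Defs

/-! P253Y, block H1, row RING1: the first coordinate. -/

set_option linter.all false

open Polynomial IsDedekindDomain
open scoped IntermediateField

namespace Vale.Agent.P253Y.H

open Vale.Agent.P297Z Vale.Agent.P297Z.Sf
open Vale.Agent.P297 (Place)

namespace R1

variable {K : Type} [Field K] [Algebra ℂ K]

theorem sub_ne {f : K} (hf : Transcendental ℂ f) (c : ℂ) : f - algebraMap ℂ K c ≠ 0 := by
  intro h
  rw [sub_eq_zero] at h
  exact hf (h ▸ isAlgebraic_algebraMap c)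

theorem ord_c (P : Place K) (hc : ∀ c : ℂ, algebraMap ℂ K c ∈ P.ring) (c : ℂ) :
    P.ord (algebraMap ℂ K c) = 0 :=
  Pl.ord_unit _ (hc c) (by rw [← map_inv₀]; exact hc _)

theorem aeval_ne {f : K} (hf : Transcendental ℂ f) {p : ℂ[X]} (hp : p ≠ 0) : aeval f p ≠ 0 :=
  fun h => hf ⟨p, hp, h⟩

theorem ord_prod (P : Place K) {f : K} (hf : Transcendental ℂ f) (s : Multiset ℂ) :
    (s.map fun a => f - algebraMap ℂ K a).prod ≠ 0 ∧
    P.ord (s.map fun a => f - algebraMap ℂ K a).prod =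
      (s.map fun a => P.ord (f - algebraMap ℂ K a)).sum := by
  induction s using Multiset.induction_on with
  | empty => simp
  | cons a s ih =>
    rw [Multiset.map_cons, Multiset.prod_cons, Multiset.map_cons, Multiset.sum_cons]
    exact ⟨mul_ne_zero (sub_ne hf a) ih.1, by rw [Pl.ord_mul _ (sub_ne hf a) ih.1, ih.2]⟩

/-- The order of a polynomial in `f`. -/
theorem ord_aeval (P : Place K) (hc : ∀ c : ℂ, algebraMap ℂ K c ∈ P.ring) {f : K}
    (hf : Transcendental ℂ f) {p : ℂ[X]} (hp : p ≠ 0) :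
    P.ord (aeval f p) = (p.roots.map fun a => P.ord (f - algebraMap ℂ K a)).sum := by
  have h1 := (IsAlgClosed.splits p).eq_prod_roots
  have h2 : aeval f p = algebraMap ℂ K p.leadingCoeff *
      (p.roots.map fun a => f - algebraMap ℂ K a).prod := by
    conv_lhs => rw [h1]
    rw [map_mul, aeval_C, map_multiset_prod, Multiset.map_map]
    congr 2
    apply Multiset.map_congr rfl
    intro a _
    simp
  have h3 : algebraMap ℂ K p.leadingCoeff ≠ 0 := by
    simpa using hp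
  rw [h2, Pl.ord_mul _ h3 (ord_prod P hf _).1, ord_c P hc, zero_add, (ord_prod P hf _).2]

theorem ord_other (P : Place K) (hc : ∀ c : ℂ, algebraMap ℂ K c ∈ P.ring) {f : K}
    (hf : Transcendental ℂ f) {c a : ℂ} (h : 0 < P.ord (f - algebraMap ℂ K c)) (ha : a ≠ c) :
    P.ord (f - algebraMap ℂ K a) = 0 := by
  have h1 : f - algebraMap ℂ K a = algebraMap ℂ K (c - a) + (f - algebraMap ℂ K c) := by
    rw [map_sub]; ring
  have h2 : algebraMap ℂ K (c - a) ≠ 0 := by
    rw [_root_.map_ne_zero]; exact sub_ne_zero.2 ha.symm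
  rw [h1, Pl.ord_add_eq_of_lt _ h2 (sub_ne hf c) (by rw [ord_c P hc]; exact h), ord_c P hc]

open Classical in
theorem ord_aeval_over (P : Place K) (hc : ∀ c : ℂ, algebraMap ℂ K c ∈ P.ring) {f : K}
    (hf : Transcendental ℂ f) {c : ℂ} (h : 0 < P.ord (f - algebraMap ℂ K c)) {p : ℂ[X]}
    (hp : p ≠ 0) :
    P.ord (aeval f p) = (p.roots.count c : ℤ) * P.ord (f - algebraMap ℂ K c) := by
  rw [ord_aeval P hc hf hp]
  generalize p.roots = s
  induction s using Multiset.induction_on with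
  | empty => simp
  | cons a s ih =>
    rw [Multiset.map_cons, Multiset.sum_cons, ih, Multiset.count_cons]
    by_cases ha : c = a
    · subst ha
      simp only [if_true]
      push_cast
      ring
    · rw [if_neg ha, ord_other P hc hf h (Ne.symm ha)]
      simp

theorem ord_aeval_pole (P : Place K) (hc : ∀ c : ℂ, algebraMap ℂ K c ∈ P.ring) {f : K}
    (hf : Transcendental ℂ f) (h : P.ord f < 0) {p : ℂ[X]} (hp : p ≠ 0) :
    P.ord (aeval f p) ≤ 0 := by
  rw [ord_aeval P hc hf hp]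
  refine Multiset.sum_induction (fun z : ℤ => z ≤ 0) _ (fun a b ha hb => add_nonpos ha hb)
    le_rfl ?_
  intro z hz
  obtain ⟨a, -, rfl⟩ := Multiset.mem_map.1 hz
  by_cases ha : a = 0
  · subst ha
    simpa using h.le
  · have h0 : f ≠ 0 := by simpa using sub_ne hf 0
    have h2 : -algebraMap ℂ K a ≠ 0 := by simpa using ha
    rw [sub_eq_add_neg, Pl.ord_add_eq_of_lt _ h0 h2 (by rw [Pl.ord_neg, ord_c P hc]; exact h)]
    exact h.le

theorem tr_fst {f t : K} (h : AlgebraicIndependent ℂ ![f, t]) : Transcendental ℂ f :=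
  h.transcendental 0

theorem tr_snd {f t : K} (h : AlgebraicIndependent ℂ ![f, t]) : Transcendental ℂ⟮f⟯ t := by
  rw [IntermediateField.transcendental_adjoin_iff]
  have := h.transcendental_adjoin (s := {0}) (i := 1) (by simp)
  rwa [Set.image_singleton] at this

/-- A place that is trivial on the nonzero elements of `ℂ(f)`. -/
theorem hz_of {f : K} (hf : Transcendental ℂ f) (P : Place K)
    (h : ∀ a : ℂ⟮f⟯, (a : K) ∈ P.ring) : Hz f P := by
  refine ⟨fun c => h (algebraMap ℂ ℂ⟮f⟯ c), fun c => ?_⟩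
  have hm : f - algebraMap ℂ K c ∈ ℂ⟮f⟯ :=
    sub_mem (IntermediateField.mem_adjoin_simple_self ℂ f) (IntermediateField.algebraMap_mem _ c)
  exact Pl.ord_unit _ (h ⟨_, hm⟩) (h ⟨_, inv_mem hm⟩)

/-- A function without zeros and poles on the generic fibre comes from the base. -/
theorem mem_base {f t : K} (hi : AlgebraicIndependent ℂ ![f, t])
    (hg : IntermediateField.adjoin ℂ {f, t} = ⊤) {g : K} (h0 : g ≠ 0)
    (h : ∀ P : Place K, Hz f P → t ∈ P.ring → P.ord g = 0) : g ∈ ℂ⟮f⟯ := by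
  have ht := tr_snd hi
  letI : Algebra (ℂ⟮f⟯)[X] K := (aeval t : (ℂ⟮f⟯)[X] →ₐ[ℂ⟮f⟯] K).toRingHom.toAlgebra
  have hal : ∀ p : (ℂ⟮f⟯)[X], algebraMap _ K p = aeval t p := fun _ => rfl
  have hinj : Function.Injective (algebraMap (ℂ⟮f⟯)[X] K) := transcendental_iff_injective.1 ht
  haveI : FaithfulSMul (ℂ⟮f⟯)[X] K := (faithfulSMul_iff_algebraMap_injective _ _).2 hinj
  haveI : IsFractionRing (ℂ⟮f⟯)[X] K := by
    apply IsFractionRing.of_field
    intro z
    have hz : z ∈ (ℂ⟮f⟯⟮t⟯).restrictScalars ℂ := by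
      rw [IntermediateField.adjoin_simple_adjoin_simple, hg]
      trivial
    exact (IntermediateField.mem_adjoin_simple_iff _ z).1 hz
  have key : ∀ u : K, (∀ P : Place K, Hz f P → t ∈ P.ring → u ∈ P.ring) →
      ∃ p : (ℂ⟮f⟯)[X], aeval t p = u := by
    intro u hu
    refine HeightOneSpectrum.mem_integers_of_valuation_le_one (R := (ℂ⟮f⟯)[X]) K u fun v => ?_
    let P : Place K := ⟨(v.valuation K).valuationSubring, inferInstance⟩
    have hP : ∀ p : (ℂ⟮f⟯)[X], aeval t p ∈ P.ring := fun p => v.valuation_le_one p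
    refine hu P (hz_of (tr_fst hi) P fun a => ?_) ?_
    · have := hP (C a)
      rwa [aeval_C] at this
    · have := hP X
      rwa [aeval_X] at this
  obtain ⟨p, hp⟩ := key g fun P h1 h2 => ((Pl.ord_eq_zero_iff P h0).1 (h P h1 h2)).1
  obtain ⟨q, hq⟩ := key g⁻¹ fun P h1 h2 => ((Pl.ord_eq_zero_iff P h0).1 (h P h1 h2)).2
  have hpq : p * q = 1 := by
    apply hinj
    rw [hal, hal, map_mul, hp, hq, map_one, mul_inv_cancel₀ h0]
  obtain ⟨a, -, ha⟩ := Polynomial.isUnit_iff.1 (IsUnit.of_mul_eq_one q hpq)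
  rw [← hp, ← ha, aeval_C]
  exact a.2

theorem frac {f g : K} (h0 : g ≠ 0) (h : g ∈ ℂ⟮f⟯) :
    ∃ p q : ℂ[X], p ≠ 0 ∧ q ≠ 0 ∧ g = aeval f p / aeval f q := by
  obtain ⟨p, q, rfl⟩ := (IntermediateField.mem_adjoin_simple_iff _ g).1 h
  refine ⟨p, q, ?_, ?_, rfl⟩
  · rintro rfl
    simp at h0
  · rintro rfl
    simp at h0

variable {W : Submodule ℂ K} {D : Finset (Crv W)}

/-- The equation of a vertical curve comes from the base. -/
theorem prin_base {f t : K} (hu : Ufd D) (h : Fibr D f t) {C : Crv W} (hC : C ∉ D)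
    (hv : ¬ Hz f C.pl) : ∃ p q : ℂ[X], p ≠ 0 ∧ q ≠ 0 ∧ C.ord (aeval f p / aeval f q) = 1 ∧
      ∀ C', C' ∉ D → C' ≠ C → C'.ord (aeval f p / aeval f q) = 0 := by
  obtain ⟨g, h0, h1, h2⟩ := hu.prin C hC
  have hm : g ∈ ℂ⟮f⟯ := by
    refine mem_base h.ind h.gen h0 fun P hP ht => ?_
    obtain ⟨C', hC', rfl⟩ := h.all P hP ht
    refine h2 C' hC' ?_
    rintro rfl
    exact hv hP
  obtain ⟨p, q, hp, hq, rfl⟩ := frac h0 hm
  exact ⟨p, q, hp, hq, h1, h2⟩

/-- If `f` has a pole, some fibre of `f` is empty. -/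
theorem empty_fibre {f t : K} (hu : Ufd D) (h : Fibr D f t) {C : Crv W} (hC : C ∉ D)
    (hv : C.ord f < 0) : ∃ c : ℂ, ∀ C', C' ∉ D → C'.ord (f - algebraMap ℂ K c) ≤ 0 := by
  classical
  have hf := tr_fst h.ind
  obtain ⟨p, q, hp, hq, h1, h2⟩ := prin_base hu h hC (fun hz => by
    have := hz.2 0
    rw [map_zero, sub_zero] at this
    unfold Crv.ord at hv
    omega)
  by_contra hcon
  push Not at hcon
  have hd : q ∣ p := by
    rw [IsAlgClosed.dvd_iff_roots_le_roots hq hp, Multiset.le_iff_count]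
    intro c
    obtain ⟨C', hC', h3⟩ := hcon c
    have hne : C' ≠ C := by
      rintro rfl
      have := ord_aeval_pole C'.pl C'.const_mem hf hv (X_sub_C_ne_zero c)
      rw [map_sub, aeval_X, aeval_C] at this
      unfold Crv.ord at h3
      omega
    have h4 := h2 C' hC' hne
    unfold Crv.ord at h3 h4
    rw [Pl.ord_div _ (aeval_ne hf hp) (aeval_ne hf hq), ord_aeval_over _ C'.const_mem hf h3 hp,
      ord_aeval_over _ C'.const_mem hf h3 hq, ← sub_mul] at h4
    have h5 := (mul_eq_zero.1 h4).resolve_right h3.ne'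
    omega
  obtain ⟨r, rfl⟩ := hd
  have hr : r ≠ 0 := right_ne_zero_of_mul hp
  rw [map_mul, mul_div_cancel_left₀ _ (aeval_ne hf hq)] at h1
  have := ord_aeval_pole C.pl C.const_mem hf hv hr
  unfold Crv.ord at h1
  omega

theorem hz_inv {f : K} (hf : Transcendental ℂ f) (c : ℂ) {P : Place K}
    (h : Hz (f - algebraMap ℂ K c)⁻¹ P) : Hz f P := by
  refine ⟨h.1, fun a => ?_⟩
  have h0 := h.2 0
  rw [map_zero, sub_zero, Pl.ord_inv, neg_eq_zero] at h0
  by_cases ha : a = c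
  · rw [ha]; exact h0
  have h1 := sub_ne hf c
  have h2 : algebraMap ℂ K (c - a) ≠ 0 := by
    rw [_root_.map_ne_zero]; exact sub_ne_zero.2 (Ne.symm ha)
  have h3 : f - algebraMap ℂ K a = algebraMap ℂ K (c - a) *
      ((f - algebraMap ℂ K c) * ((f - algebraMap ℂ K c)⁻¹ - algebraMap ℂ K (-(c - a)⁻¹))) := by
    rw [map_neg, map_inv₀, sub_neg_eq_add, mul_add, mul_inv_cancel₀ h1, mul_add, mul_one,
      mul_comm (f - algebraMap ℂ K c), ← mul_assoc, mul_inv_cancel₀ h2, one_mul, map_sub]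
    ring
  have h4 : (f - algebraMap ℂ K c)⁻¹ - algebraMap ℂ K (-(c - a)⁻¹) ≠ 0 := by
    intro h5
    rw [h5, mul_zero, mul_zero] at h3
    exact sub_ne hf a h3
  rw [h3, Pl.ord_mul _ h2 (mul_ne_zero h1 h4), Pl.ord_mul _ h1 h4, ord_c P h.1, h0, h.2]
  rfl

theorem ind_of (htd : Algebra.trdeg ℂ K = 2) {x t : K}
    (hg : IntermediateField.adjoin ℂ {x, t} = ⊤) : AlgebraicIndependent ℂ ![x, t] := by
  have h1 : Set.range ![x, t] = {x, t} := by simp [Set.pair_comm]
  haveI : Algebra.IsAlgebraic (Algebra.adjoin ℂ (Set.range ![x, t])) K := by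
    rw [← IntermediateField.isAlgebraic_adjoin_iff_top, h1, hg]
    refine ⟨fun z => ?_⟩
    exact isAlgebraic_algebraMap (⟨z, trivial⟩ : (⊤ : IntermediateField ℂ K))
  refine (Algebra.IsAlgebraic.isTranscendenceBasis_of_lift_le_trdeg_of_finite ℂ ![x, t] ?_).1
  rw [htd]
  simp

theorem fibr_inv (htd : Algebra.trdeg ℂ K = 2) {f t : K} (h : Fibr D f t) (c : ℂ) :
    Fibr D (f - algebraMap ℂ K c)⁻¹ t := by
  have hf := tr_fst h.ind
  have hg : IntermediateField.adjoin ℂ {(f - algebraMap ℂ K c)⁻¹, t} = ⊤ := by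
    rw [eq_top_iff, ← h.gen, IntermediateField.adjoin_le_iff]
    have h1 : (f - algebraMap ℂ K c)⁻¹ ∈
        IntermediateField.adjoin ℂ {(f - algebraMap ℂ K c)⁻¹, t} :=
      IntermediateField.subset_adjoin _ _ (by simp)
    have h2 := add_mem (inv_mem h1) (IntermediateField.algebraMap_mem _ c)
    rw [inv_inv, sub_add_cancel] at h2
    rintro z (rfl | rfl)
    · exact h2
    · exact IntermediateField.subset_adjoin _ _ (by simp)
  exact ⟨ind_of htd hg, hg, fun C hC hz => h.reg C hC (hz_inv hf c hz),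
    fun P hz ht => h.all P (hz_inv hf c hz) ht⟩

/-- A regular first coordinate. -/
theorem exists_reg (htd : Algebra.trdeg ℂ K = 2) {f t : K} (hu : Ufd D) (h : Fibr D f t) :
    ∃ x, Fibr D x t ∧ ∀ C, C ∉ D → x ∈ C.pl.ring := by
  have hf := tr_fst h.ind
  by_cases hr : ∀ C, C ∉ D → f ∈ C.pl.ring
  · exact ⟨f, h, hr⟩
  push Not at hr
  obtain ⟨C, hC, hn⟩ := hr
  have h0 : f ≠ 0 := by simpa using sub_ne hf 0
  rw [← Pl.ord_nonneg_iff _ h0, not_le] at hn
  obtain ⟨c, hc⟩ := empty_fibre hu h hC hn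
  refine ⟨_, fibr_inv htd h c, fun C' hC' => ?_⟩
  rw [← Pl.ord_nonneg_iff _ (inv_ne_zero (sub_ne hf c)), Pl.ord_inv]
  have := hc C' hC'
  unfold Crv.ord at this
  omega

theorem lin_of {x t : K} (hu : Ufd D) (h : Fibr D x t) (hm : ∀ C, C ∉ D → x ∈ C.pl.ring) :
    Lin D x t := by
  classical
  have hf := tr_fst h.ind
  refine ⟨h, hm, fun c => ?_⟩
  have h1 : ∃ C, C ∉ D ∧ 0 < C.ord (x - algebraMap ℂ K c) := by
    by_contra hcon
    push Not at hcon
    obtain ⟨a, ha⟩ := hu.unit _ (sub_ne hf c) fun C hC =>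
      le_antisymm (hcon C hC) (Pl.ord_nonneg_of_mem _ (sub_mem (hm C hC) (C.const_mem c)))
    apply sub_ne hf (c + a)
    rw [map_add, ← ha]
    ring
  obtain ⟨C, hC, h2⟩ := h1
  obtain ⟨p, q, hp, hq, h3, h4⟩ := prin_base hu h hC (fun hz => by
    have := hz.2 c
    unfold Crv.ord at h2
    omega)
  have h5 : ∀ C' : Crv W, 0 < C'.ord (x - algebraMap ℂ K c) → C'.ord (aeval x p / aeval x q) =
      ((p.roots.count c : ℤ) - q.roots.count c) * C'.ord (x - algebraMap ℂ K c) := by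
    intro C' h6
    unfold Crv.ord at h6 ⊢
    rw [Pl.ord_div _ (aeval_ne hf hp) (aeval_ne hf hq), ord_aeval_over _ C'.const_mem hf h6 hp,
      ord_aeval_over _ C'.const_mem hf h6 hq, ← sub_mul]
  have h6 := h5 C h2
  rw [h3] at h6
  have h7 := Int.eq_one_of_mul_eq_one_left h2.le h6.symm
  refine ⟨C, hC, h7, fun C' hC' h8 => ?_⟩
  by_contra hne
  have h9 := h5 C' h8
  rw [h7, mul_one] at h6
  rw [h4 C' hC' hne, ← h6, one_mul] at h9
  omega

end R1

theorem ring1 : RING1 := by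
  intro K _ _ S D f t hu h
  obtain ⟨x, h1, h2⟩ := R1.exists_reg S.model.td hu h
  exact ⟨x, R1.lin_of hu h1 h2⟩

end Vale.Agent.P253Y.H
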