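import Vale.Agent.P253Y.H.Defs
import Vale.Agent.P253Y.Res.Cent

/-! P253Y, block H1: the second coordinate. -/

set_option linter.all false

open Polynomial

namespace Vale.Agent.P253Y.H

open Vale.Agent.P297Z Vale.Agent.P297Z.Sf
open Vale.Agent.P297 (Place)

variable {K : Type} [Field K] [Algebra ℂ K]

namespace R2

theorem aeval_mem {O : Subalgebra ℂ K} {π : K} (h : π ∈ O) (P : ℂ[X]) : aeval π P ∈ O :=
  Algebra.adjoin_le (Set.singleton_subset_iff.2 h) (aeval_mem_adjoin_singleton ℂ π)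

theorem split (π : K) (P : ℂ[X]) :
    aeval π P = algebraMap ℂ K (P.coeff 0) + π * aeval π P.divX := by
  conv_lhs => rw [← X_mul_divX_add P]
  rw [map_add, map_mul, aeval_X, aeval_C, add_comm]

/-- The elements that agree with a polynomial in `π` up to the order `N`. -/
def apx (O : Subalgebra ℂ K) {π : K} (h : π ∈ O) (N : ℕ) : Subalgebra ℂ K where
  carrier := {f | ∃ P : ℂ[X], ∃ g ∈ O, f = aeval π P + π ^ N * g}
  mul_mem' := by
    rintro _ _ ⟨P, g, hg, rfl⟩ ⟨Q, g', hg', rfl⟩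
    refine ⟨P * Q, aeval π P * g' + g * (aeval π Q + π ^ N * g'), ?_, by rw [map_mul]; ring⟩
    exact add_mem (mul_mem (aeval_mem h P) hg')
      (mul_mem hg (add_mem (aeval_mem h Q) (mul_mem (pow_mem h N) hg')))
  add_mem' := by
    rintro _ _ ⟨P, g, hg, rfl⟩ ⟨Q, g', hg', rfl⟩
    exact ⟨P + Q, g + g', add_mem hg hg', by rw [map_add]; ring⟩
  algebraMap_mem' c := ⟨C c, 0, zero_mem _, by simp⟩

theorem apx_one {O : Subalgebra ℂ K} {π : K} {h : π ∈ O} {f : K} :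
    f ∈ apx O h 1 ↔ ∃ d : ℂ, ∃ g ∈ O, f = algebraMap ℂ K d + π * g := by
  constructor
  · rintro ⟨P, g, hg, rfl⟩
    exact ⟨P.coeff 0, aeval π P.divX + g, add_mem (aeval_mem h _) hg, by rw [split π P]; ring⟩
  · rintro ⟨d, g, hg, rfl⟩
    exact ⟨C d, g, hg, by simp⟩

theorem add_mem_apx {O : Subalgebra ℂ K} {x : K} {c : ℂ} (h : x - algebraMap ℂ K c ∈ O) (N : ℕ) :
    x ∈ apx O h N := ⟨X + C c, 0, zero_mem _, by simp⟩

/-- The change of the coordinate. -/
def Mv (π t t' : K) : Prop := ∃ (n k : ℕ) (P : ℂ[X]), t' = (t * π ^ n - aeval π P) / π ^ k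

theorem Mv.symm {π t t' : K} (h0 : π ≠ 0) (h : Mv π t t') : Mv π t' t := by
  obtain ⟨n, k, P, rfl⟩ := h
  refine ⟨k, n, -P, ?_⟩
  rw [map_neg]
  field_simp
  ring

theorem Mv.mem {π t t' : K} (h : Mv π t t') {O : Subalgebra ℂ K} (h1 : π ∈ O) (h2 : π⁻¹ ∈ O)
    (ht : t ∈ O) : t' ∈ O := by
  obtain ⟨n, k, P, rfl⟩ := h
  rw [div_eq_mul_inv, ← inv_pow]
  exact mul_mem (sub_mem (mul_mem ht (pow_mem h1 n)) (aeval_mem h1 P)) (pow_mem h2 k)

theorem Mv.gen {x t t' : K} {c : ℂ} (h0 : x - algebraMap ℂ K c ≠ 0)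
    (h : Mv (x - algebraMap ℂ K c) t t') (hg : IntermediateField.adjoin ℂ {x, t} = ⊤) :
    IntermediateField.adjoin ℂ {x, t'} = ⊤ := by
  have hx : x ∈ IntermediateField.adjoin ℂ {x, t'} :=
    IntermediateField.subset_adjoin ℂ _ (by simp)
  have ht : t' ∈ IntermediateField.adjoin ℂ {x, t'} :=
    IntermediateField.subset_adjoin ℂ _ (by simp)
  have hπ : x - algebraMap ℂ K c ∈ IntermediateField.adjoin ℂ {x, t'} :=
    sub_mem hx (IntermediateField.algebraMap_mem _ c)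
  have h3 : t ∈ IntermediateField.adjoin ℂ {x, t'} :=
    (h.symm h0).mem (O := (IntermediateField.adjoin ℂ {x, t'}).toSubalgebra) hπ
      ((IntermediateField.adjoin ℂ {x, t'}).inv_mem hπ) ht
  rw [eq_top_iff, ← hg, IntermediateField.adjoin_le_iff]
  rintro _ (rfl | rfl)
  · exact hx
  · exact h3

theorem frac {s : Set K} (hg : IntermediateField.adjoin ℂ s = ⊤) :
    IsFractionRing (Algebra.adjoin ℂ s) K := by
  refine IsFractionRing.of_field _ _ fun z => ?_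
  have hz : z ∈ IntermediateField.adjoin ℂ s := by rw [hg]; trivial
  obtain ⟨r, hr, q, hq, e⟩ := IntermediateField.mem_adjoin_iff_div.1 hz
  exact ⟨⟨r, hr⟩, ⟨q, hq⟩, e⟩

theorem ind_of_gen {x t : K} (td : Algebra.trdeg ℂ K = 2)
    (hg : IntermediateField.adjoin ℂ {x, t} = ⊤) : AlgebraicIndependent ℂ ![x, t] := by
  have e : Set.range ![x, t] = {x, t} := by simp [Set.pair_comm]
  have := frac (e ▸ hg : IntermediateField.adjoin ℂ (Set.range ![x, t]) = ⊤)
  have : Algebra.IsAlgebraic (Algebra.adjoin ℂ (Set.range ![x, t])) K :=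
    IsLocalization.isAlgebraic K (nonZeroDivisors _)
  exact (Algebra.IsAlgebraic.isTranscendenceBasis_of_lift_le_trdeg_of_finite ℂ ![x, t]
    (by simp [td])).1

section Place

variable {v : Place K} {hc : ∀ c, algebraMap ℂ K c ∈ v.ring} {π : K}

theorem ne_of_pos {f : K} (h : 0 < v.ord f) : f ≠ 0 := by
  rintro rfl
  simp at h

theorem pi_mem (hc : ∀ c, algebraMap ℂ K c ∈ v.ring) (h1 : v.ord π = 1) :
    π ∈ Ct.valAlg v.ring hc :=
  (Pl.ord_nonneg_iff v (ne_of_pos (v := v) (by omega))).1 (by omega)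

theorem div_mem (h1 : v.ord π = 1) {f : K} (h : 0 < v.ord f) : f / π ∈ v.ring := by
  have h0 : π ≠ 0 := ne_of_pos (v := v) (by omega)
  rw [← Pl.ord_nonneg_iff v (div_ne_zero (ne_of_pos h) h0), Pl.ord_div v (ne_of_pos h) h0]
  omega

theorem van (h1 : v.ord π = 1) {g : K} (hg : g ∈ v.ring) (h : π * g ≠ 0) :
    0 < v.ord (π * g) := by
  rw [Pl.ord_mul v (left_ne_zero_of_mul h) (right_ne_zero_of_mul h)]
  have := Pl.ord_nonneg_of_mem v hg
  omega

theorem ord_const (hc : ∀ c, algebraMap ℂ K c ∈ v.ring) (c : ℂ) :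
    v.ord (algebraMap ℂ K c) = 0 :=
  Pl.ord_unit _ (hc c) (by rw [← map_inv₀]; exact hc _)

theorem const_zero (hc : ∀ c, algebraMap ℂ K c ∈ v.ring) (h1 : v.ord π = 1) {d : ℂ} {g : K}
    (hg : g ∈ v.ring) (h : 0 < v.ord (algebraMap ℂ K d + π * g)) : d = 0 := by
  by_contra hd
  have h0 : π ≠ 0 := ne_of_pos (v := v) (by omega)
  have e : algebraMap ℂ K d = π * ((algebraMap ℂ K d + π * g) / π - g) := by
    field_simp
    ring
  have h2 := van h1 (sub_mem (div_mem h1 h) hg) (by rw [← e]; simpa using hd)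
  rw [← e, ord_const hc] at h2
  omega

theorem mem_of_pos (h1 : v.ord π = 1) {f : K} {d : ℂ} (h : 0 < v.ord (f - algebraMap ℂ K d)) :
    f ∈ apx _ (pi_mem hc h1) 1 := by
  have h0 : π ≠ 0 := ne_of_pos (v := v) (by omega)
  refine apx_one.2 ⟨d, _, div_mem h1 h, ?_⟩
  field_simp
  ring

theorem inv_mem_apx (h1 : v.ord π = 1) {g : K} (hg : g ∈ apx _ (pi_mem hc h1) 1) (h0 : g ≠ 0)
    (ho : v.ord g = 0) : g⁻¹ ∈ apx _ (pi_mem hc h1) 1 := by
  obtain ⟨d, h, hh, e⟩ := apx_one.1 hg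
  have hd : d ≠ 0 := by
    rintro rfl
    rw [map_zero, zero_add] at e
    have := van h1 hh (e ▸ h0)
    rw [← e] at this
    omega
  have hi : g⁻¹ ∈ v.ring := ((Pl.ord_eq_zero_iff v h0).1 ho).2
  refine apx_one.2 ⟨d⁻¹, -(h * g⁻¹ * algebraMap ℂ K d⁻¹),
    neg_mem (mul_mem (mul_mem hh hi) (hc _)), ?_⟩
  have hd' : algebraMap ℂ K d ≠ 0 := by simpa using hd
  rw [map_inv₀]
  field_simp
  rw [e]
  ring

theorem div_apx (h1 : v.ord π = 1) {f : K} (hf : ∀ N, f ∈ apx _ (pi_mem hc h1) N)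
    (h : 0 < v.ord f) (N : ℕ) : f / π ∈ apx _ (pi_mem hc h1) N := by
  have h0 : π ≠ 0 := ne_of_pos (v := v) (by omega)
  obtain ⟨P, g, hg, e⟩ := hf (N + 1)
  have e2 : f = algebraMap ℂ K (P.coeff 0) + π * (aeval π P.divX + π ^ N * g) := by
    rw [e, split π P]; ring
  have hm : aeval π P.divX + π ^ N * g ∈ Ct.valAlg v.ring hc :=
    add_mem (aeval_mem (pi_mem hc h1) _) (mul_mem (pow_mem (pi_mem hc h1) N) hg)
  have hd := const_zero hc h1 hm (e2 ▸ h)
  refine ⟨P.divX, g, hg, ?_⟩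
  rw [e2, hd, map_zero, zero_add, mul_div_cancel_left₀ _ h0]

theorem pow_apx (h1 : v.ord π = 1) {f : K} (hf : ∀ N, f ∈ apx _ (pi_mem hc h1) N) (hf0 : f ≠ 0)
    (m : ℕ) (h : (m : ℤ) ≤ v.ord f) (N : ℕ) : f / π ^ m ∈ apx _ (pi_mem hc h1) N := by
  have h0 : π ≠ 0 := ne_of_pos (v := v) (by omega)
  induction m generalizing N with
  | zero => simpa using hf N
  | succ m ih =>
    rw [pow_succ, ← div_div]
    refine div_apx h1 (ih (by push_cast at h; omega)) ?_ N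
    rw [Pl.ord_div v hf0 (pow_ne_zero _ h0), Pl.ord_pow, h1]
    push_cast at h
    omega

theorem apx_le (h1 : v.ord π = 1) (N : ℕ) {f : K} (hf : f ∈ apx _ (pi_mem hc h1) N) :
    f ∈ v.ring := by
  obtain ⟨P, g, hg, rfl⟩ := hf
  exact (add_mem (aeval_mem (pi_mem hc h1) _) (mul_mem (pow_mem (pi_mem hc h1) N) hg) :
    _ ∈ Ct.valAlg v.ring hc)

theorem quot_apx (h1 : v.ord π = 1) {p q : K} (hp : ∀ N, p ∈ apx _ (pi_mem hc h1) N)
    (hq : ∀ N, q ∈ apx _ (pi_mem hc h1) N) (h0 : p / q ≠ 0) (ho : v.ord (p / q) = 0) :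
    p / q ∈ apx _ (pi_mem hc h1) 1 := by
  have hπ : π ≠ 0 := ne_of_pos (v := v) (by omega)
  have hp0 : p ≠ 0 := (div_ne_zero_iff.1 h0).1
  have hq0 : q ≠ 0 := (div_ne_zero_iff.1 h0).2
  rw [Pl.ord_div v hp0 hq0] at ho
  obtain ⟨m, hm⟩ := Int.eq_ofNat_of_zero_le (Pl.ord_nonneg_of_mem v (apx_le h1 0 (hq 0)))
  have a1 := pow_apx h1 hp hp0 m (by omega) 1
  have a2 := inv_mem_apx h1 (pow_apx h1 hq hq0 m (by omega) 1)
    (div_ne_zero hq0 (pow_ne_zero _ hπ))
    (by rw [Pl.ord_div v hq0 (pow_ne_zero _ hπ), Pl.ord_pow, h1]; omega)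
  have e : p / q = p / π ^ m * (q / π ^ m)⁻¹ := by field_simp
  rw [e]
  exact mul_mem a1 a2

/-- `t` is regular and not constant. -/
def Good (hc : ∀ c, algebraMap ℂ K c ∈ v.ring) (h1 : v.ord π = 1) (t : K) : Prop :=
  t ∈ v.ring ∧ t ∉ apx _ (pi_mem hc h1) 1

/-- The local step. -/
theorem step {x t : K} {c : ℂ} (h1 : v.ord (x - algebraMap ℂ K c) = 1)
    (hg : IntermediateField.adjoin ℂ {x, t} = ⊤)
    (hres : ∃ f : K, ∀ P : ℂ[X], P ≠ 0 → aeval f P ≠ 0 ∧ v.ord (aeval f P) = 0) :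
    ∃ t', Mv (x - algebraMap ℂ K c) t t' ∧ Good hc h1 t' := by
  by_contra hcon
  have h0 : x - algebraMap ℂ K c ≠ 0 := ne_of_pos (v := v) (by omega)
  obtain ⟨n, hn⟩ : ∃ n : ℕ, t * (x - algebraMap ℂ K c) ^ n ∈ v.ring := by
    by_cases ht : t = 0
    · exact ⟨0, by simp [ht, v.ring.zero_mem]⟩
    refine ⟨(-v.ord t).toNat, ?_⟩
    rw [← Pl.ord_nonneg_iff v (mul_ne_zero ht (pow_ne_zero _ h0)),
      Pl.ord_mul v ht (pow_ne_zero _ h0), Pl.ord_pow, h1]
    omega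
  have hN : ∀ N, t * (x - algebraMap ℂ K c) ^ n ∈ apx _ (pi_mem hc h1) N := by
    intro N
    induction N with
    | zero => exact ⟨0, _, hn, by simp⟩
    | succ N ih =>
      obtain ⟨P, g, hg, e⟩ := ih
      have hm : Mv (x - algebraMap ℂ K c) t g := ⟨n, N, P, by rw [e]; field_simp; ring⟩
      have h2 : g ∈ apx _ (pi_mem hc h1) 1 := by
        by_contra h3
        exact hcon ⟨g, hm, hg, h3⟩
      obtain ⟨Q, g', hg', e'⟩ := h2
      refine ⟨P + X ^ N * Q, g', hg', ?_⟩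
      rw [e, e', map_add, map_mul, map_pow, aeval_X]
      ring
  have hg1 := Mv.gen h0 (⟨n, 0, 0, by simp⟩ :
    Mv (x - algebraMap ℂ K c) t (t * (x - algebraMap ℂ K c) ^ n)) hg
  have hle : ∀ N, Algebra.adjoin ℂ {x, t * (x - algebraMap ℂ K c) ^ n} ≤
      apx _ (pi_mem hc h1) N := fun N => Algebra.adjoin_le (by
    rintro _ (rfl | rfl)
    · exact add_mem_apx _ N
    · exact hN N)
  obtain ⟨f, hf⟩ := hres
  have hz : f ∈ IntermediateField.adjoin ℂ {x, t * (x - algebraMap ℂ K c) ^ n} := by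
    rw [hg1]; trivial
  obtain ⟨p, hp, q, hq, rfl⟩ := IntermediateField.mem_adjoin_iff_div.1 hz
  have h2 := hf X X_ne_zero
  rw [aeval_X] at h2
  obtain ⟨d, g, hg, e⟩ :=
    apx_one.1 (quot_apx h1 (fun N => hle N hp) (fun N => hle N hq) h2.1 h2.2)
  have h3 := hf (X - C d) (X_sub_C_ne_zero d)
  rw [map_sub, aeval_X, aeval_C, e, add_sub_cancel_left] at h3
  have := van h1 hg h3.1
  omega

theorem ne_unit (hc : ∀ c, algebraMap ℂ K c ∈ v.ring) {x : K} {c c' : ℂ}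
    (h1 : v.ord (x - algebraMap ℂ K c') = 1) (hne : c' ≠ c) :
    x - algebraMap ℂ K c ≠ 0 ∧ v.ord (x - algebraMap ℂ K c) = 0 := by
  have e : x - algebraMap ℂ K c = algebraMap ℂ K (c' - c) + (x - algebraMap ℂ K c') := by
    rw [map_sub]; ring
  have hd : algebraMap ℂ K (c' - c) ≠ 0 := by simpa [-map_sub] using sub_ne_zero.2 hne
  have h0 : x - algebraMap ℂ K c' ≠ 0 := ne_of_pos (v := v) (by omega)
  refine ⟨fun h => ?_, ?_⟩
  · have e2 : x - algebraMap ℂ K c' = algebraMap ℂ K (c - c') := by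
      rw [sub_eq_zero.1 h, map_sub]
    rw [e2, ord_const hc] at h1
    omega
  · rw [e, Pl.ord_add_eq_of_lt v hd h0 (by rw [ord_const hc]; omega), ord_const hc]

/-- The step keeps the other fibres good. -/
theorem Good.mv {x t t' : K} {c c' : ℂ} {h1 : v.ord (x - algebraMap ℂ K c') = 1} (hne : c' ≠ c)
    (hm : Mv (x - algebraMap ℂ K c) t t') (h : Good hc h1 t) : Good hc h1 t' := by
  obtain ⟨h0, ho⟩ := ne_unit hc h1 hne
  have hu := (Pl.ord_eq_zero_iff v h0).1 ho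
  have ha : x - algebraMap ℂ K c ∈ apx _ (pi_mem hc h1) 1 :=
    sub_mem (add_mem_apx _ 1) (Subalgebra.algebraMap_mem _ c)
  exact ⟨hm.mem (O := Ct.valAlg v.ring hc) hu.1 hu.2 h.1,
    fun h' => h.2 ((hm.symm h0).mem ha (inv_mem_apx h1 ha h0 ho) h')⟩

theorem ctr_max (h1 : v.ord π = 1) {A : Subalgebra ℂ K} (hA : A ≤ apx _ (pi_mem hc h1) 1)
    (hle : A ≤ Ct.valAlg v.ring hc) : (ctr hle).IsMaximal := by
  rw [Ideal.isMaximal_iff]
  refine ⟨(Ideal.ne_top_iff_one _).1 (ctr_isPrime hle).ne_top, fun J a hJ ha haJ => ?_⟩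
  obtain ⟨d, g, hg, e⟩ := apx_one.1 (hA a.2)
  have h2 : a - algebraMap ℂ A d ∈ ctr hle := by
    rw [mem_ctr]
    have e2 : ((a - algebraMap ℂ A d : A) : K) = π * g := by
      push_cast
      rw [e]
      simp
    rw [e2]
    by_cases h0 : π * g = 0
    · exact Or.inl h0
    refine Or.inr fun hi => ?_
    have h3 := van h1 hg h0
    have h4 := Pl.ord_nonneg_of_mem v hi
    rw [Pl.ord_inv] at h4
    omega
  have hd : d ≠ 0 := by
    rintro rfl
    rw [map_zero, sub_zero] at h2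
    exact ha h2
  have h3 := J.mul_mem_left (algebraMap ℂ A d⁻¹) (sub_mem haJ (hJ h2))
  rwa [sub_sub_cancel, ← map_mul, inv_mul_cancel₀ hd, map_one] at h3

end Place

theorem fibr_mv {W : Submodule ℂ K} {D : Finset (Crv W)} {x t t' : K} {c : ℂ}
    (td : Algebra.trdeg ℂ K = 2) (h0 : x - algebraMap ℂ K c ≠ 0)
    (hm : Mv (x - algebraMap ℂ K c) t t') (h : Fibr D x t) : Fibr D x t' := by
  have key : ∀ P : Place K, Hz x P → ∀ s s', Mv (x - algebraMap ℂ K c) s s' → s ∈ P.ring →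
      s' ∈ P.ring := fun P hP s s' hs => by
    have hu := (Pl.ord_eq_zero_iff P h0).1 (hP.2 c)
    exact hs.mem (O := Ct.valAlg P.ring hP.1) hu.1 hu.2
  exact ⟨ind_of_gen td (hm.gen h0 h.gen), hm.gen h0 h.gen,
    fun C hC hz => key _ hz _ _ hm (h.reg C hC hz),
    fun P hz ht => h.all P hz (key _ hz _ _ (hm.symm h0) ht)⟩

end R2

open R2 in
theorem ring2 : RING2 := fun K _ _ S D x t h => by
  classical
  choose Cv hD h1 hu using h.fib
  have h0 : ∀ c, x - algebraMap ℂ K c ≠ 0 := fun c => ne_of_pos (v := (Cv c).pl) (by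
    have := h1 c
    unfold Crv.ord at this
    omega)
  have hinj : Function.Injective Cv := fun c c' e => by
    by_contra hne
    have h2 := (ne_unit (Cv c).const_mem (h1 c) hne).2
    have h3 := h1 c'
    rw [← e] at h3
    unfold Crv.ord at h3
    omega
  have hres : ∀ C : Crv S.W, ∃ f : K, ∀ P : ℂ[X], P ≠ 0 →
      aeval f P ≠ 0 ∧ C.pl.ord (aeval f P) = 0 := fun C => by
    obtain ⟨i, hi⟩ := S.all.crv_cover C
    obtain ⟨a, -, ha⟩ := S.all.res C _ (S.x_mem i) hi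
    exact ⟨_, ha⟩
  have hind : ∀ (s : Finset ℂ) (t : K), Fibr D x t →
      (∀ c, c ∉ s → Good (Cv c).const_mem (h1 c) t) →
      ∃ y, Fibr D x y ∧ ∀ c, Good (Cv c).const_mem (h1 c) y := by
    intro s
    induction s using Finset.induction_on with
    | empty => exact fun t ht hg => ⟨t, ht, fun c => hg c (by simp)⟩
    | insert c s _ ih =>
      intro t ht hg
      obtain ⟨t', hm, hg'⟩ := step (hc := (Cv c).const_mem) (h1 c) ht.gen (hres _)
      refine ih t' (fibr_mv S.model.td (h0 c) hm ht) fun c' hc' => ?_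
      by_cases e : c' = c
      · subst e
        exact hg'
      · exact (hg c' (by simp [e, hc'])).mv e hm
  have hfin : {c | ¬ Good (Cv c).const_mem (h1 c) t}.Finite := by
    have f1 := Res.finc K S (Algebra.adjoin ℂ {x, t})
      (Algebra.FiniteType.adjoin_of_finite (Set.toFinite _)) (frac h.gen)
    refine (((S.all.fin_div t).union f1).preimage hinj.injOn).subset fun c hc => ?_
    by_cases ht : t ∈ (Cv c).pl.ring
    · right
      have hA : Algebra.adjoin ℂ {x, t} ≤ apx _ (pi_mem (Cv c).const_mem (h1 c)) 1 :=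
        Algebra.adjoin_le (by
          rintro _ (rfl | rfl)
          · exact add_mem_apx _ 1
          · by_contra h3
            exact hc ⟨ht, h3⟩)
      have hle : Algebra.adjoin ℂ {x, t} ≤ Ct.valAlg _ (Cv c).const_mem :=
        fun f hf => apx_le (h1 c) 1 (hA hf)
      exact ⟨ctr hle, ctr_max (h1 c) hA hle, Res.Cn.dom_ctr hle⟩
    · left
      intro e
      have ht0 : t ≠ 0 := by
        rintro rfl
        exact ht (zero_mem _)
      exact ht ((Pl.ord_nonneg_iff _ ht0).1 (le_of_eq (Eq.symm e)))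
  obtain ⟨y, hy, hg⟩ := hind hfin.toFinset t h.toFibr fun c hc => by simpa using hc
  refine ⟨y, ⟨hy, h.mem, h.fib⟩, fun C hC => ?_, fun C hC a b hab => ?_⟩
  · by_cases hz : Hz x C.pl
    · exact hy.reg C hC hz
    · obtain ⟨c, hc⟩ := not_forall.1 fun h3 => hz ⟨C.const_mem, h3⟩
      have h3 := Pl.ord_nonneg_of_mem C.pl (sub_mem (h.mem C hC) (C.const_mem c))
      rw [hu c C hC (lt_of_le_of_ne h3 (Ne.symm hc))]
      exact (hg c).1
  · have e := hu a C hC hab.1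
    subst e
    exact (hg a).2 (mem_of_pos (h1 a) hab.2)

end Vale.Agent.P253Y.H
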