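import Vale.Agent.P253Y.H.Defs
import Vale.Agent.P297Z.Surf.AllOf
import Mathlib.RingTheory.MvPolynomial.IrreducibleQuadratic
import Mathlib.RingTheory.UniqueFactorizationDomain.Ideal

/-! P253Y, block H1: the local rings of the points outside `D` are local rings of the plane. -/

set_option linter.all false

namespace Vale.Agent.P253Y.H

open Vale.Agent.P297Z Vale.Agent.P297Z.Sf
open Vale.Agent.P297 (Place)
open Res (Off)
open MvPolynomial

namespace R3

variable {K : Type} [Field K] [Algebra ℂ K]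

/-- A prime ideal of the plane that contains two coprime polynomials is maximal. -/
theorem max_of_rel {p : Ideal (MvPolynomial (Fin 2) ℂ)} (hp : p.IsPrime)
    {A B : MvPolynomial (Fin 2) ℂ} (hA : A ∈ p) (hB : B ∈ p) (h : IsRelPrime A B) :
    p.IsMaximal := by
  have hne : p ≠ ⊥ := by
    rintro rfl
    rw [Ideal.mem_bot] at hA hB
    subst hA hB
    exact not_isUnit_zero (h (dvd_refl 0) (dvd_refl 0))
  obtain ⟨t, ht, htp⟩ := hp.exists_mem_prime_of_ne_bot hne
  obtain ⟨m, hm, hle⟩ := p.exists_le_maximal hp.ne_top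
  by_contra hc
  have h1 : p < m := lt_of_le_of_ne hle (by rintro rfl; exact hc hm)
  have h2 : Ideal.span {t} = p :=
    lt_two_eq ((Ideal.span_singleton_prime htp.ne_zero).2 htp) hp hm.isPrime
      (height_mvPolynomial ℂ 2 m hm) (by simpa using htp.ne_zero)
      ((Ideal.span_singleton_le_iff_mem p).2 ht) h1
  rw [← h2, Ideal.mem_span_singleton] at hA hB
  exact htp.not_unit (h hA hB)

theorem irr (c : ℂ) : Irreducible (X 0 - C c : MvPolynomial (Fin 2) ℂ) := by
  have h := irreducible_mul_X_add (1 : MvPolynomial (Fin 2) ℂ) (C (-c)) 0 one_ne_zero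
    (by simp) (by rw [vars_C]; simp) isRelPrime_one_left
  rwa [one_mul, map_neg, ← sub_eq_add_neg] at h

/-- The place contains the coordinate ring of the plane. -/
structure In (x y : K) (P : Place K) : Prop where
  c : ∀ c : ℂ, algebraMap ℂ K c ∈ P.ring
  x : x ∈ P.ring
  y : y ∈ P.ring

theorem In.mem {x y : K} {P : Place K} (h : In x y P) (A : MvPolynomial (Fin 2) ℂ) :
    aeval ![x, y] A ∈ P.ring := by
  induction A using MvPolynomial.induction_on with
  | C a => rw [aeval_C]; exact h.c a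
  | add p q hp hq => rw [map_add]; exact add_mem hp hq
  | mul_X p i hp =>
    rw [map_mul, aeval_X]
    refine mul_mem hp ?_
    fin_cases i
    · exact h.x
    · exact h.y

/-- The centre of the place on the plane. -/
noncomputable def In.cen {x y : K} {P : Place K} (h : In x y P) :
    Ideal (MvPolynomial (Fin 2) ℂ) where
  carrier := {A | Pl.val P (aeval ![x, y] A) < 1}
  zero_mem' := by simp
  add_mem' := by
    intro A B hA hB
    change Pl.val P _ < 1
    rw [map_add]
    exact Valuation.map_add_lt _ hA hB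
  smul_mem' := by
    intro c A hA
    change Pl.val P _ < 1
    rw [smul_eq_mul, map_mul, map_mul]
    exact mul_lt_one_of_nonneg_of_lt_one_right ((Pl.mem_ring_iff P _).1 (h.mem c)) zero_le' hA

theorem In.mem_cen {x y : K} {P : Place K} (h : In x y P) (A : MvPolynomial (Fin 2) ℂ) :
    A ∈ h.cen ↔ Pl.val P (aeval ![x, y] A) < 1 := Iff.rfl

theorem In.prime {x y : K} {P : Place K} (h : In x y P) : h.cen.IsPrime := by
  refine ⟨fun e => ?_, fun {A B} hAB => ?_⟩
  · have : (1 : MvPolynomial (Fin 2) ℂ) ∈ h.cen := by rw [e]; trivial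
    rw [h.mem_cen] at this
    simp at this
  · rw [h.mem_cen, map_mul, map_mul] at hAB
    by_contra hc
    rw [not_or, h.mem_cen, h.mem_cen, not_lt, not_lt] at hc
    exact absurd hAB (not_lt.2 (one_le_mul hc.1 hc.2))

theorem ne_of_ind {x y : K} (hi : AlgebraicIndependent ℂ ![x, y]) (i : Fin 2) (c : ℂ) :
    ![x, y] i - algebraMap ℂ K c ≠ 0 := by
  intro e
  have h1 : (X i - C c : MvPolynomial (Fin 2) ℂ) = 0 :=
    hi (by rw [map_sub, aeval_X, aeval_C, map_zero]; exact e)
  have h2 := congrArg (eval fun _ => c + 1) h1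
  simp at h2

/-- The centre is not a point. -/
def Nc (x y : K) (P : Place K) : Prop :=
  ∀ a b : ℂ, ¬ (0 < P.ord (x - algebraMap ℂ K a) ∧ 0 < P.ord (y - algebraMap ℂ K b))

theorem In.not_rel {x y : K} {P : Place K} (h : In x y P) (hi : AlgebraicIndependent ℂ ![x, y])
    (hn : Nc x y P) {A B : MvPolynomial (Fin 2) ℂ} (hA : A ∈ h.cen) (hB : B ∈ h.cen) :
    ¬ IsRelPrime A B := by
  intro hr
  have hm := max_of_rel h.prime hA hB hr
  have key : ∀ i : Fin 2, ∃ c : ℂ, 0 < P.ord (![x, y] i - algebraMap ℂ K c) := by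
    intro i
    obtain ⟨c, hc⟩ := val_of_isMaximal h.cen (X i)
    refine ⟨c, (Pl.ord_pos_iff_val P (ne_of_ind hi i c)).2 ?_⟩
    rw [h.mem_cen, map_sub, aeval_X, AlgHom.commutes] at hc
    exact hc
  obtain ⟨a, ha⟩ := key 0
  obtain ⟨b, hb⟩ := key 1
  exact hn a b ⟨ha, hb⟩

/-- Every element is a quotient of coprime polynomials. -/
theorem exists_rel {x y : K} (hg : IntermediateField.adjoin ℂ {x, y} = ⊤) (f : K) :
    ∃ A B : MvPolynomial (Fin 2) ℂ, IsRelPrime A B ∧ aeval ![x, y] B ≠ 0 ∧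
      f * aeval ![x, y] B = aeval ![x, y] A := by
  have h1 : f ∈ IntermediateField.adjoin ℂ (Set.range ![x, y]) := by
    rw [Matrix.range_cons, Matrix.range_cons, Matrix.range_empty, Set.union_empty,
      Set.singleton_union, hg]
    trivial
  obtain ⟨r, s, e⟩ := (IntermediateField.mem_adjoin_range_iff ℂ _ f).1 h1
  by_cases h0 : aeval ![x, y] s = 0
  · exact ⟨0, 1, isRelPrime_one_right, by simp, by simp [e, h0]⟩
  have h2 : s ≠ 0 := by
    rintro rfl
    exact h0 (map_zero _)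
  obtain ⟨A, B, c, h3, rfl, rfl⟩ := UniqueFactorizationMonoid.exists_reduced_factors' r s h2
  rw [map_mul] at h0
  refine ⟨A, B, h3, right_ne_zero_of_mul h0, ?_⟩
  rw [e, map_mul, map_mul, mul_div_mul_left _ _ (left_ne_zero_of_mul h0),
    div_mul_cancel₀ _ (right_ne_zero_of_mul h0)]

/-- The denominator of an element of the ring is not in the centre. -/
theorem In.den {x y : K} {P : Place K} (h : In x y P) (hi : AlgebraicIndependent ℂ ![x, y])
    (hn : Nc x y P) {A B : MvPolynomial (Fin 2) ℂ} (hr : IsRelPrime A B) {f : K}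
    (hf : f ∈ P.ring) (e : f * aeval ![x, y] B = aeval ![x, y] A) : B ∉ h.cen := by
  intro hB
  refine h.not_rel hi hn ?_ hB hr
  rw [h.mem_cen, ← e, map_mul]
  exact mul_lt_one_of_nonneg_of_lt_one_right ((Pl.mem_ring_iff P _).1 hf) zero_le' hB

/-- Two places over the same vertical line are equal. -/
theorem eq_of_vert {x y : K} (hi : AlgebraicIndependent ℂ ![x, y])
    (hg : IntermediateField.adjoin ℂ {x, y} = ⊤) {P Q : Place K} (hP : In x y P) (hQ : In x y Q)
    (nP : Nc x y P) (nQ : Nc x y Q) {c : ℂ} (oP : 0 < P.ord (x - algebraMap ℂ K c))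
    (oQ : 0 < Q.ord (x - algebraMap ℂ K c)) : P = Q := by
  have h0 : x - algebraMap ℂ K c ≠ 0 := ne_of_ind hi 0 c
  have e0 : aeval ![x, y] (X 0 - C c : MvPolynomial (Fin 2) ℂ) = x - algebraMap ℂ K c := by
    rw [map_sub, aeval_X, aeval_C]; rfl
  have cP : X 0 - C c ∈ hP.cen := by
    rw [hP.mem_cen, e0]; exact (Pl.ord_pos_iff_val P h0).1 oP
  have cQ : X 0 - C c ∈ hQ.cen := by
    rw [hQ.mem_cen, e0]; exact (Pl.ord_pos_iff_val Q h0).1 oQ
  refine Pl.eq_of_le' fun f hf => ?_
  obtain ⟨A, B, hr, hB, e⟩ := exists_rel hg f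
  have h1 : B ∉ hQ.cen := by
    intro h1
    have h2 : X 0 - C c ∣ B := by
      by_contra h3
      exact hQ.not_rel hi nQ cQ h1 ((irr c).isRelPrime_iff_not_dvd.2 h3)
    exact hP.den hi nP hr hf e (hP.cen.mem_of_dvd h2 cP)
  rw [hQ.mem_cen, not_lt] at h1
  rw [Pl.mem_ring_iff]
  have h2 := (Pl.mem_ring_iff Q _).1 (hQ.mem A)
  rw [← e, map_mul] at h2
  exact (le_mul_of_one_le_right' h1).trans h2

variable {S : Surf K}

theorem mem_pt {p : Pt S.W} {f : K} (h : ∀ C, p.On C → f ∈ C.pl.ring) : f ∈ p.ring :=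
  (S.all.normal p f).1 (Or.inr fun C hC => by
    have := Pl.ord_nonneg_of_mem C.pl (h C hC)
    simpa using this)

theorem van_eval {p : Pt S.W} {u : Fin 2 → K} {z : Fin 2 → ℂ} (hu : ∀ i, u i ∈ p.ring)
    (hz : ∀ i, p.Van (u i - algebraMap ℂ K (z i))) (A : MvPolynomial (Fin 2) ℂ) :
    aeval u A ∈ p.ring ∧ p.Van (aeval u A - algebraMap ℂ K (eval z A)) := by
  induction A using MvPolynomial.induction_on with
  | C a => exact ⟨by rw [aeval_C]; exact p.ring.algebraMap_mem a, by simp [p.van_zero]⟩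
  | add A B hA hB =>
    refine ⟨by rw [map_add]; exact add_mem hA.1 hB.1, ?_⟩
    rw [map_add, map_add, map_add, add_sub_add_comm]
    exact hA.2.add hB.2
  | mul_X A i hA =>
    refine ⟨by rw [map_mul, aeval_X]; exact mul_mem hA.1 (hu i), ?_⟩
    have e : aeval u (A * X i) - algebraMap ℂ K (eval z (A * X i)) =
        (aeval u A - algebraMap ℂ K (eval z A)) * u i +
          algebraMap ℂ K (eval z A) * (u i - algebraMap ℂ K (z i)) := by
      rw [map_mul, map_mul, map_mul, aeval_X, eval_X]; ring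
    rw [e]
    exact (hA.2.mul_right (hu i)).add ((hz i).mul_left (p.ring.algebraMap_mem _))

theorem Crd.in {D : Finset (Crv S.W)} {x y : K} (h : Crd D x y) {C : Crv S.W} (hC : C ∉ D) :
    In x y C.pl := ⟨C.const_mem, h.mem C hC, h.mem' C hC⟩

theorem loc {D : Finset (Crv S.W)} {x y : K} (h : Crd D x y) {p : Pt S.W} (hp : Off D p) :
    ∃ z, IsLoc x y z p.ring := by
  have hD : ∀ C, p.On C → C ∉ D := fun C hC hm => hp C hm hC
  have hu : ∀ i, ![x, y] i ∈ p.ring := by
    intro i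
    fin_cases i
    · exact mem_pt fun C hC => h.mem C (hD C hC)
    · exact mem_pt fun C hC => h.mem' C (hD C hC)
  choose z hz using fun i => S.all.val p _ (hu i)
  have hv := van_eval hu hz
  refine ⟨z, fun f => ⟨fun hf => ?_, ?_⟩⟩
  · obtain ⟨A, B, hr, hB, e⟩ := exists_rel h.gen f
    refine ⟨A, B, fun h0 => ?_, e⟩
    have h1 := (hv B).2
    rw [h0, map_zero, sub_zero] at h1
    refine h1.2.resolve_left hB (mem_pt fun C hC => ?_)
    have h2 := (Crd.in h (hD C hC)).den h.ind (h.nc C (hD C hC)) hr (hC f hf) e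
    rw [In.mem_cen, not_lt] at h2
    rw [Pl.mem_ring_iff, map_inv₀]
    exact inv_le_one_of_one_le₀ h2
  · rintro ⟨A, B, h0, e⟩
    have h1 : ¬ p.Van (aeval ![x, y] B) := fun h1 => by
      have h2 := h1.sub (hv B).2
      rw [sub_sub_cancel] at h2
      exact h0 (Pt.van_const h2)
    obtain ⟨h2, h3⟩ := Pt.inv_mem (hv B).1 h1
    rw [eq_div_of_mul_eq h2 e, div_eq_mul_inv]
    exact mul_mem (hv A).1 h3

/-- A curve that is not in `D` has a point outside `D`. -/
theorem exists_off {D : Finset (Crv S.W)} {C : Crv S.W} (hC : C ∉ D) :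
    ∃ p : Pt S.W, Off D p ∧ p.On C := by
  obtain ⟨i, hi⟩ := S.all.crv_cover C
  have h1 := S.all.inf_pt C _ (S.x_mem i) hi
  have h2 : (⋃ E ∈ D, {p : Pt S.W | p.On C ∧ p.On E}).Finite :=
    D.finite_toSet.biUnion fun E hE => S.all.fin_meet C E (by rintro rfl; exact hC hE)
  obtain ⟨p, hp, hn⟩ := h1.exists_notMem_finite h2
  exact ⟨p, fun E hE hm => hn (Set.mem_biUnion hE ⟨hp.1, hm⟩), hp.1⟩

theorem crv {D : Finset (Crv S.W)} {x y : K} (h : Crd D x y) {P : Place K} (hP : In x y P)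
    (hn : Nc x y P) : ∃ C, C ∉ D ∧ C.pl = P := by
  by_cases hz : Hz x P
  · exact h.all P hz hP.y
  have h1 : ∃ c : ℂ, P.ord (x - algebraMap ℂ K c) ≠ 0 := by
    by_contra hc
    exact hz ⟨hP.c, fun c => by
      by_contra h2
      exact hc ⟨c, h2⟩⟩
  obtain ⟨c, hc⟩ := h1
  have h2 := Pl.ord_nonneg_of_mem P (sub_mem hP.x (hP.c c))
  obtain ⟨C, hC, h3, -⟩ := h.fib c
  refine ⟨C, hC, eq_of_vert h.ind h.gen (Crd.in h hC) hP (h.nc C hC) hn (c := c) ?_ ?_⟩
  · change 0 < C.ord _
    omega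
  · omega

end R3

theorem ring3 : RING3 := by
  intro K _ _ S D x y h
  refine ⟨h.ind, h.gen, ?_, fun P hc hx hy => ?_⟩
  · rintro R ⟨p, hp, rfl⟩
    exact R3.loc h hp
  · by_cases hn : R3.Nc x y P
    · obtain ⟨C, hC, rfl⟩ := R3.crv h ⟨hc, hx, hy⟩ hn
      obtain ⟨p, hp, ho⟩ := R3.exists_off hC
      exact Or.inr ⟨p.ring, ⟨p, hp, rfl⟩, ho⟩
    · refine Or.inl ?_
      by_contra hc
      exact hn fun a b hab => hc ⟨a, b, hab⟩

end Vale.Agent.P253Y.H
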