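import Vale.Agent.P253Y.H.Ufd
import Vale.Agent.P253Y.H.Bri
import Vale.Agent.P253Y.H.Genf
import Vale.Agent.P253Y.H.Base
import Vale.Agent.P253Y.H.Ring1
import Vale.Agent.P253Y.H.Ring2
import Vale.Agent.P253Y.H.Ring3
import Vale.Agent.P253Y.H.Cof
import Vale.Agent.P253Y.Res.Dom
import Vale.Agent.P253Y.Res.Blow
import Vale.Agent.P253Y.Res.Cent

/-! # P253Y, block H1: the algebraic part holds -/

namespace Vale.Agent.P253Y.H

theorem h1a : H1A :=
  h1a_of (ufd np) (bri hor genf base) ring1 ring2 ring3 (cof (Res.dom Res.blow) Res.cent Res.finc)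

end Vale.Agent.P253Y.H
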