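import Vale.Agent.P253Y.H.Defs
import Vale.Agent.P253Y.G.Basic
import Vale.Agent.P253Y.G.Pos

/-! P253Y, block H1: numerically trivial divisors, the class group and the units. -/

set_option linter.all false

namespace Vale.Agent.P253Y.H

open Vale.Agent.P297Z Vale.Agent.P297Z.Sf Vale.Agent.P297Z.Sf.Mp

variable {K : Type} [Field K] [Algebra ℂ K] {S : Surf K}

namespace UfdH

theorem sec {X Y : Sf.Div S.W} (h1 : H0 X ≠ ⊥) (h2 : H0 Y ≠ ⊥) : H0 (X + Y) ≠ ⊥ := by
  obtain ⟨f, f1, f2⟩ := (Submodule.ne_bot_iff _).1 h1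
  obtain ⟨g, g1, g2⟩ := (Submodule.ne_bot_iff _).1 h2
  exact (Submodule.ne_bot_iff _).2 ⟨f * g, mul_mem_secOn f1 g1, mul_ne_zero f2 g2⟩

/-- The adjoint of a numerically trivial divisor has no section. -/
theorem adj {D : Finset (Crv S.W)} (h : Cls S D) {L : Sf.Div S.W} (hL : Nz L) :
    H0 (S.kap - L) = ⊥ := by
  have hA := S.all
  by_contra o
  have b1 := hA.sq
  have b7 := h.chi
  obtain ⟨k, b2, b3⟩ : ∃ k : ℤ, inter S.H S.kap < k * inter S.H S.H ∧ 0 < k := by
    have := le_abs_self (inter S.H S.kap)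
    have := abs_nonneg (inter S.H S.kap)
    exact ⟨|inter S.H S.kap| + 1, by nlinarith, by positivity⟩
  obtain ⟨n, hn⟩ := h.nb (k • S.H)
  have a1 : H0 (k • S.H + n • L) ≠ ⊥ := by
    refine Hd.sec_of hA ?_ ?_
    · simp only [i_add', i_smul', i_nsmul', inter_comm S.H L, hL _]
      omega
    · simp only [i_add, i_add', i_smul, i_smul', i_nsmul, i_nsmul', inter_comm S.H L,
        inter_comm S.kap L, inter_comm S.kap S.H, hL _]
      nlinarith [mul_pos b3 (sub_pos.2 b2)]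
  obtain ⟨f, f1, f2⟩ := (Submodule.ne_bot_iff _).1 o
  refine sec a1 ((Submodule.ne_bot_iff _).2 ⟨_, H0_nsmul f1 n, pow_ne_zero n f2⟩)
    (eq_bot_mono (H0_mono ?_) (hn n le_rfl))
  rw [add_assoc, ← nsmul_add, add_sub_cancel, lg, nsmul_add, ← add_assoc]
  exact le_add_of_nonneg_right (nsmul_nonneg (rd_nonneg D) n)

/-- A multiple of every divisor is numerically a divisor with support in `D`. -/
theorem span (D : Finset (Crv S.W)) (h : ∀ A : Sf.Div S.W, (∀ C ∈ D, inter A C.cl = 0) → Nz A)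
    (Y : Sf.Div S.W) : ∃ (N : ℤ) (A : Sf.Div S.W), 0 < N ∧ On A D ∧ Nz (N • Y - A) := by
  classical
  have hA := S.all
  let L : Sf.Div S.W → (D → ℚ) →ₗ[ℚ] ℚ := fun X =>
    ∑ C : D, (inter C.1.cl X : ℚ) • LinearMap.proj C
  have hL : ∀ X a, L X a = ∑ C : D, a C * inter C.1.cl X := fun X a => by
    simp only [L, LinearMap.sum_apply, LinearMap.smul_apply, LinearMap.proj_apply, smul_eq_mul,
      mul_comm]
  have hZ : ∀ {a : D → ℚ} {N : ℤ} {b : D → ℤ}, (∀ i, (b i : ℚ) = N * a i) → ∀ X,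
      (inter (∑ C : D, b C • C.1.cl) X : ℚ) = N * L X a := fun {a N b} hb X => by
    rw [PosH.inter_sum hA, hL, Finset.mul_sum]
    push_cast
    exact Finset.sum_congr rfl fun C _ => by rw [hb, mul_assoc]
  have h1 : L Y ∈ Submodule.span ℚ (Set.range fun C : D => L C.1.cl) := by
    refine mem_span_of_iInf_ker_le_ker fun a ha => ?_
    obtain ⟨N, b, hN, hb⟩ := PosH.clear a
    have h2 := h (∑ C : D, b C • C.1.cl) (fun C hC => by
      have h3 := hZ hb C.cl
      rw [LinearMap.mem_ker.1 ((Submodule.mem_iInf _).1 ha ⟨C, hC⟩), mul_zero] at h3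
      exact_mod_cast h3) Y
    have h4 := hZ hb Y
    rw [h2, Int.cast_zero] at h4
    exact (mul_eq_zero.1 h4.symm).resolve_left (by exact_mod_cast hN.ne')
  obtain ⟨y, hy⟩ := (Submodule.mem_span_range_iff_exists_fun ℚ).1 h1
  obtain ⟨N, b, hN, hb⟩ := PosH.clear y
  have h5 : ∀ X (C : D), L X (Pi.single C 1) = inter C.1.cl X := fun X C => by
    rw [hL, Finset.sum_eq_single C (fun C' _ e => by rw [Pi.single_eq_of_ne e, zero_mul])
      (fun e => (e (Finset.mem_univ _)).elim), Pi.single_eq_same, one_mul]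
  refine ⟨N, ∑ C : D, b C • C.1.cl, hN, fun C hC => ?_, h _ fun C hC => ?_⟩
  · rw [Finsupp.finset_sum_apply]
    refine Finset.sum_eq_zero fun C' _ => ?_
    have e : C ≠ C'.1 := fun e => hC (e ▸ C'.2)
    rw [Finsupp.smul_apply, cl_ne e, smul_zero]
  · have h8 := LinearMap.congr_fun hy (Pi.single ⟨C, hC⟩ 1)
    simp only [LinearMap.sum_apply, LinearMap.smul_apply, h5, smul_eq_mul,
      inter_comm C.cl] at h8
    have h9 := hZ hb C.cl
    rw [hL, h8] at h9
    rw [i_sub, i_smul, sub_eq_zero]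
    exact_mod_cast h9.symm

theorem ord_pow (C : Crv S.W) (g : K) (n : ℕ) : C.ord (g ^ n) = n * C.ord g := Pl.ord_pow _ g n

end UfdH

open UfdH

theorem np : NP := fun K _ _ S D h L hL => by
  have hA := S.all
  have a1 := hA.le L
  have a2 := hA.rr L
  have a3 := h.chi
  rw [h0_bot (adj h hL)] at a1
  rw [inter_comm S.kap, hL, hL] at a2
  obtain ⟨f, f1, f2⟩ := (Submodule.ne_bot_iff _).1 (Hd.ne_bot_of_pos (X := L) (by omega))
  have a4 := Hd.eq_zero_of_deg hA (eff_of_mem hA.toLoc2 f1 f2)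
    (by rw [i_add', i_div' f2, inter_comm, hL, add_zero])
  refine ⟨f⁻¹, inv_ne_zero f2, Finsupp.ext fun C => ?_⟩
  have a5 := DFunLike.congr_fun a4 C
  rw [Finsupp.add_apply, div_apply hA.toLoc2, Finsupp.zero_apply] at a5
  rw [div_apply hA.toLoc2]
  have a6 : C.ord f⁻¹ = -C.ord f := Pl.ord_inv _ f
  omega

theorem ufd (np : NP) : UFD := fun K _ _ S D h hk => by
  have hA := S.all
  refine ⟨fun C hC => ?_, fun g g0 hg => ?_⟩
  · obtain ⟨N, A, hN, hD, hz⟩ := span D h.perp C.cl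
    obtain ⟨g, g0, hg⟩ := np K S D h _ hz
    lift N to ℕ using hN.le
    have a1 : ∀ X, X ∉ D → X.ord g = N * C.cl X := fun X hX => by
      rw [← div_apply hA.toLoc2, hg, Finsupp.sub_apply, hD X hX, sub_zero, Finsupp.smul_apply,
        smul_eq_mul]
    obtain ⟨u, rfl⟩ := hk g N g0 (by omega) fun X hX => ⟨_, a1 X hX⟩
    have a2 : ∀ X, X ∉ D → X.ord u = C.cl X := fun X hX =>
      mul_left_cancel₀ hN.ne' (by rw [← a1 X hX, ord_pow])
    exact ⟨u, fun e => g0 (by rw [e, zero_pow (by omega)]), by rw [a2 C hC, cl_self],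
      fun X hX e => by rw [a2 X hX, cl_ne e]⟩
  · refine hA.const g (Or.inr fun C _ => ?_)
    obtain ⟨u, hu⟩ := hk g ((C.ord g).natAbs + 1) g0 (by omega) fun X hX => by
      rw [hg X hX]; exact dvd_zero _
    have a1 := ord_pow C u ((C.ord g).natAbs + 1)
    rw [hu] at a1
    have a2 := Int.eq_zero_of_dvd_of_natAbs_lt_natAbs ⟨_, a1⟩ (by omega)
    rw [a2]
    rfl

end Vale.Agent.P253Y.H
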